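import Vale.Agent.P157.Cube2.Intf

/-!
# P146: the two one-spin lemmas of the marginality proof

In a normalised tilted Gaussian law the slope of an odd function with decreasing ratio `u y / y`
has second moment well above one when the field correlation `E y u` is below one; the
magnetisations of the one-spin recursion have a decreasing ratio.
-/

open MeasureTheory ProbabilityTheory Real

namespace Vale.Agent.P146

/-- The mean of `φ` under the standard Gaussian law tilted by `exp (lam F)`. -/
noncomputable def gTilt (lam : ℝ) (F φ : ℝ → ℝ) : ℝ :=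
  (∫ y, φ y * exp (lam * F y) ∂gaussianReal 0 1) / ∫ y, exp (lam * F y) ∂gaussianReal 0 1

/-- The one-variable inequality. -/
def IneqStmt : Prop :=
  ∀ (u n F : ℝ → ℝ) (lam C : ℝ), 0 ≤ lam → (∀ y, HasDerivAt u (n y) y) → (∀ y, HasDerivAt F (u y) y) →
    Continuous n → (∀ y, |u y| ≤ C ∧ |n y| ≤ C) → (∀ y, u (-y) = -u y) → Monotone u →
    (∀ x z, 0 ≤ x → x ≤ z → x * u z ≤ z * u x) →
    gTilt lam F (fun y => u y ^ 2) = 1 → gTilt lam F (fun y => y * u y) ≤ 1 →
      3 / 2 * (1 - gTilt lam F fun y => y * u y) ≤ gTilt lam F (fun y => n y ^ 2) - 1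

/-- The magnetisations over the field decrease. -/
def RatioStmt : Prop :=
  ∀ (k : ℕ) (r : ℕ → ℝ), (∀ i < k, r i ≤ r (i + 1)) → ∀ j ≤ k, ∀ x z : ℝ, 0 ≤ x → x ≤ z →
    x * P157.Cube2.spinU k r j z ≤ z * P157.Cube2.spinU k r j x

end Vale.Agent.P146
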