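import Vale.Agent.P146.MargGrid
import Vale.Agent.P146.MargPins

/-!
# P146: near minimisers have a marginal first tail variable

At the first positive level of a minimiser the magnetisation, rescaled, is the function of the
one-variable inequality, whose two means are the tail variable and the stability coefficient.
-/

open MeasureTheory ProbabilityTheory Real Filter Topology Finset
open Vale.Agent.P157.Rsb (lev mass IsPath vOf tail)
open Vale.Agent.P157.Cube2
open Vale.Agent.P166.Rsb (vOf_eq_tail)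

namespace Vale.Agent.P146

variable {k l : ℕ} {r : ℕ → ℝ}

theorem flat_low (hlo : ∀ i < l, r i = 0) {j : ℕ} (hj : j ≤ l - 1) (hlk : l ≤ k) :
    spinU k r j = spinU k r (l - 1) ∧ deriv (spinU k r j) = deriv (spinU k r (l - 1)) := by
  induction hd : l - 1 - j generalizing j with
  | zero => rw [show j = l - 1 by omega]; exact ⟨rfl, rfl⟩
  | succ d ih =>
    obtain ⟨h1, h2⟩ := ih (j := j + 1) (by omega) (by omega)
    have ha : r (j + 1) - r j = 0 := by simp [hlo (j + 1) (by omega), hlo j (by omega)]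
    have e : spinU k r j = spinU k r (j + 1) := by
      funext x
      have := congrFun (spinU_step (k := k) (r := r) (show 1 ≤ j + 1 by omega) (by omega)) x
      simpa [ha, tE_zero] using this
    exact ⟨e.trans h1, by rw [e]; exact h2⟩

theorem spinQ_first (hlo : ∀ i < l, r i = 0) (hl : 1 ≤ l) :
    spinQ k r l = tE (lev k l) (r l) (spinF k r l) (fun x => spinU k r l x ^ 2) 0 := by
  suffices h : ∀ j, j ≤ l - 1 → spinW k r l j = spinW k r l (l - 1) by
    rw [spinQ, h 0 (Nat.zero_le _), spinW_step hl le_rfl, spinW_self, hlo (l - 1) (by omega), sub_zero]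
  intro j hj
  induction hd : l - 1 - j generalizing j with
  | zero => rw [show j = l - 1 by omega]
  | succ d ih =>
    rw [← ih (j + 1) (by omega) (by omega)]
    have ha : r (j + 1) - r j = 0 := by simp [hlo (j + 1) (by omega), hlo j (by omega)]
    funext x
    have := congrFun (spinW_step (k := k) (r := r) (show 1 ≤ j + 1 by omega) (show j + 1 ≤ l by omega)) x
    simpa [ha, tE_zero] using this

theorem coef_first (hlo : ∀ i < l, r i = 0) (hl : 1 ≤ l) (hlk : l ≤ k) :
    tE (lev k l) (r l) (spinF k r l) (fun x => deriv (spinU k r l) x ^ 2) 0 - 5 / 2 * mass k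
      ≤ coef k r l l 0 0 := by
  have hf : Pot (spinF k r l) := pot_spinF hlk
  have h1 : ∀ j, j ≤ l - 1 → coef k r l l j = coef k r l l (l - 1) := by
    intro j hj
    induction hd : l - 1 - j generalizing j with
    | zero => rw [show j = l - 1 by omega]
    | succ d ih =>
      rw [← ih (j + 1) (by omega) (by omega)]
      have ha : r (j + 1) - r j = 0 := by simp [hlo (j + 1) (by omega), hlo j (by omega)]
      have h := coef_step (k := k) (r := r) (i := l) (show 1 ≤ j + 1 by omega) (show j + 1 ≤ l by omega)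
      rw [if_neg (by omega), if_neg (by omega)] at h
      funext x
      simpa [ha, tE_zero, tC_zero] using congrFun h x
  rw [h1 0 (Nat.zero_le _), coef_step hl le_rfl, if_neg (lt_irrefl l), if_pos rfl, coef_self,
    if_neg (lt_irrefl l), if_pos rfl, hlo (l - 1) (by omega), sub_zero, spinW_self]
  obtain ⟨C, hC⟩ := bd2_u (r := r) hlk
  have hU : ∀ x, spinU k r l x ^ 2 ≤ 1 := fun x => (sq_le_one_iff_abs_le_one _).2 (spinU_abs hlk x)
  have b0 : Bd 0 1 fun x => spinU k r l x ^ 2 :=
    ⟨hC.1.continuous.pow 2, fun x => (abs_of_nonneg (sq_nonneg _)).trans_le (hU x)⟩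
  have t1 : tC (lev k l) (r l) (spinF k r l) (fun x => spinU k r l x ^ 2) (fun x => spinU k r l x ^ 2) 0 ≤ 1 := by
    have h := tE_mono (m := lev k l) (a := r l) hf (b0.mul b0) (Bd.const 0 1) (fun x => by
      have := mul_le_one₀ (hU x) (sq_nonneg _) (hU x); simpa using this) 0
    rw [tE_const hf] at h
    rw [tC]
    nlinarith [mul_self_nonneg (tE (lev k l) (r l) (spinF k r l) (fun x => spinU k r l x ^ 2) 0)]
  have e1 : (fun x => spinU k r l x * deriv (fun h => spinU k r l h ^ 2) x)
      = fun x => 2 * (spinU k r l x ^ 2 * deriv (spinU k r l) x) := funext fun x => by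
    rw [deriv_fun_pow (hC.1 x)]; push_cast; ring
  have t2 : tE (lev k l) (r l) (spinF k r l) (fun x => spinU k r l x * deriv (fun h => spinU k r l h ^ 2) x) 0
      ≤ 2 := by
    rw [e1, tE_const_mul]
    have h := tE_mono (m := lev k l) (a := r l) hf (b0.mul hC.2.2.down) (Bd.const 0 1)
      (fun x => mul_le_one₀ (hU x) (spinU'_nonneg hlk x) (spinU'_le_one hlk x)) 0
    rw [tE_const hf] at h
    linarith
  have hm := (massK_pos (k := k)).le
  have h0 := mul_nonneg hm (levK_nonneg (k := k) l)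
  have h2 : mass k * lev k l ≤ mass k := mul_le_of_le_one_right hm
    ((le_abs_self _).trans (levK_abs hlk))
  have := mul_le_mul_of_nonneg_left t1 (show 0 ≤ mass k * lev k l / 2 by linarith)
  have := mul_le_mul_of_nonneg_left t2 hm
  linarith

/-- At a minimiser the first tail variable is within a multiple of the mass of critical. -/
theorem IsMinPath.margin (hI : IneqStmt) (hR : RatioStmt) {β : ℝ} {q : ℕ → ℝ} (h : IsMinPath β k q)
    (hβ : 1 ≤ β) : 1 - β * vOf k q 0 ≤ 5 / 3 * β ^ 2 * mass k := by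
  have hβ0 : (0 : ℝ) < β := by linarith
  have hm := massK_pos (k := k)
  by_cases hW : β * vOf k q 0 ≤ 1
  swap
  · nlinarith [not_le.1 hW, mul_pos (mul_pos hβ0 hβ0) hm]
  have hq := h.1
  by_cases hex : ∀ l ∈ Icc 1 k, q l = 0
  · have : vOf k q 0 = 1 := by
      rw [vOf_eq_tail (Nat.zero_le k), hq.1, mul_zero, sub_zero, tail,
        sum_eq_zero fun l hl => hex l (by simpa using hl), mul_zero, sub_zero]
    rw [this, mul_one]
    nlinarith [mul_pos (mul_pos hβ0 hβ0) hm]
  push Not at hex
  obtain ⟨l, ⟨⟨hl, hlk⟩, hne⟩, hmin⟩ : ∃ l, ((1 ≤ l ∧ l ≤ k) ∧ q l ≠ 0) ∧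
      ∀ i < l, ¬((1 ≤ i ∧ i ≤ k) ∧ q i ≠ 0) := by
    have hp : ∃ l, (1 ≤ l ∧ l ≤ k) ∧ q l ≠ 0 := by
      obtain ⟨l, hl, hne⟩ := hex; exact ⟨l, mem_Icc.1 hl, hne⟩
    exact ⟨Nat.find hp, Nat.find_spec hp, fun i hi => Nat.find_min hp hi⟩
  have hlo : ∀ i < l, q i = 0 := fun i hi => by
    rcases Nat.eq_zero_or_pos i with rfl | h1
    · exact hq.1
    · by_contra hne'; exact hmin i hi ⟨⟨h1, by omega⟩, hne'⟩
  set c := q l with hcd
  have hc : 0 < c := (isPath_mem hq hlk).1.lt_of_ne (Ne.symm hne)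
  set r := scale β q with hr
  have hrlo : ∀ i < l, r i = 0 := fun i hi => by simp [hr, scale, hlo i hi]
  have hrl : r l = β ^ 2 * c := rfl
  set m := lev k l with hmd
  set F := spinF k r l with hF
  set U := spinU k r l with hU
  obtain ⟨C₀, hC⟩ : ∃ C, Bd 2 C U := bd2_u hlk
  have hf : Pot F := pot_spinF hlk
  set s := √(r l) with hs
  set sc := √c with hsc
  have hsc0 : 0 < sc := sqrt_pos.2 hc
  have hss : s = β * sc := by rw [hs, hrl, sqrt_mul (sq_nonneg β), sqrt_sq hβ0.le]
  set u : ℝ → ℝ := fun y => U (s * y) / sc with hu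
  set n : ℝ → ℝ := fun y => β * deriv U (s * y) with hn
  set G : ℝ → ℝ := fun y => F (s * y) / (β * c) with hG
  set lam := m * (β * c) with hlam
  have hw : ∀ y, exp (lam * G y) = exp (m * F (s * y)) := fun y => by
    simp only [hlam, hG]; congr 1; field_simp
  have hs1 : ∀ y, HasDerivAt (fun y => s * y) s y := fun y => by
    simpa using (hasDerivAt_id y).const_mul s
  have hsq : sc ^ 2 = c := sq_sqrt hc.le
  have hden : 0 < den m (r l) F 0 := den_pos hf 0
  have hgt : ∀ φ : ℝ → ℝ, ∀ ψ : ℝ → ℝ, (∀ y, φ y = ψ (s * y)) →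
      gTilt lam G φ = tE m (r l) F ψ 0 := fun φ ψ e => by
    simp only [gTilt, hw, e, tE, num, den, zero_add, hs]
  have hQ : tE m (r l) F (fun x => U x ^ 2) 0 = c := by
    rw [hF, hU, ← spinQ_first hrlo hl, h.overlap hβ0.ne' l (mem_Icc.2 ⟨hl, hlk⟩)]
  have e2 : gTilt lam G (fun y => u y ^ 2) = 1 := by
    rw [hgt _ (fun x => c⁻¹ * U x ^ 2) fun y => by simp only [hu]; rw [div_pow, hsq]; ring,
      tE_const_mul, hQ, inv_mul_cancel₀ hc.ne']
  have eW : gTilt lam G (fun y => y * u y) = β * vOf k q 0 := by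
    have h0 := magn_identity (r := r) (Nat.zero_le k) 0
    rw [spinU_zero (Nat.zero_le k), zero_pow two_ne_zero, mul_zero, sub_zero,
      (flat_low hrlo (Nat.zero_le _) hlk).2] at h0
    have hv : vOf k q 0 = deriv (spinU k r (l - 1)) 0 := by
      rw [vOf_eq_tail (Nat.zero_le k), hq.1, mul_zero, sub_zero, tail]
      have : ∑ i ∈ Icc (0 + 1) k, q i = ∑ i ∈ Ioc 0 k, spinW k r i 0 0 := by
        refine sum_congr ?_ fun i hi => ?_
        · ext i; simp; omega
        · exact (h.overlap hβ0.ne' i (mem_Icc.2 ⟨(mem_Ioc.1 hi).1, (mem_Ioc.1 hi).2⟩)).symm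
      rw [this]; linarith
    have hstep : spinU k r (l - 1) = tE m (r l) F U := by
      rw [spinU_step hl hlk, hrlo (l - 1) (by omega), sub_zero]
    have hnum : num m (r l) F U 0 = 0 := by
      have := congrFun hstep 0
      rw [spinU_zero (by omega), tE] at this
      exact (div_eq_zero_iff.1 this.symm).resolve_right hden.ne'
    have hd := deriv_tE_eq (m := m) (a := r l) hf hC.down 0
    rw [hnum, zero_mul, sub_zero, ← hs] at hd
    rw [hv, hstep]
    have e : (∫ y, y * u y * exp (lam * G y) ∂gaussianReal 0 1)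
        = (∫ y, y * (U (0 + s * y) * exp (m * F (0 + s * y))) ∂γ₁) / sc := by
      rw [← integral_div]
      exact integral_congr_ae (Eventually.of_forall fun y => by simp only [hw, hu, zero_add]; ring)
    rw [gTilt, e, show (∫ y, exp (lam * G y) ∂gaussianReal 0 1) = den m (r l) F 0 by
      simp only [hw, den, zero_add, hs]]
    rw [show (∫ y, y * (U (0 + s * y) * exp (m * F (0 + s * y))) ∂γ₁)
      = s * deriv (tE m (r l) F U) 0 * den m (r l) F 0 from
      mul_right_cancel₀ hden.ne' (by rw [← hd]; ring), hss]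
    field_simp
  have eg : gTilt lam G (fun y => n y ^ 2) = β ^ 2 * tE m (r l) F (fun x => deriv U x ^ 2) 0 := by
    rw [hgt _ (fun x => β ^ 2 * deriv U x ^ 2) fun y => by simp only [hn]; ring, tE_const_mul]
  have hrmono : ∀ i < k, r i ≤ r (i + 1) := fun i hi =>
    mul_le_mul_of_nonneg_left (hq.2.1 i hi) (sq_nonneg β)
  have hs0 : 0 ≤ s := sqrt_nonneg _
  have hkey := hI u n G lam (max (1 / sc) β)
    (mul_nonneg (levK_nonneg l) (mul_pos hβ0 hc).le)
    (fun y => (((hC.1 _).hasDerivAt.comp y (hs1 y)).div_const sc).congr_deriv (by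
      simp only [hn, hss]; field_simp))
    (fun y => (((hf.diff _).hasDerivAt.comp y (hs1 y)).div_const (β * c)).congr_deriv (by
      simp only [hu, hss]
      rw [show deriv F = U from rfl, ← hsq]
      field_simp))
    (continuous_const.mul (hC.2.2.cont.comp (continuous_const.mul continuous_id)))
    (fun y => ⟨by
      refine le_trans ?_ (le_max_left _ _)
      simp only [hu]
      rw [abs_div, abs_of_pos hsc0]
      exact div_le_div_of_nonneg_right (spinU_abs hlk _) hsc0.le, by
      refine le_trans ?_ (le_max_right _ _)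
      simp only [hn]
      rw [abs_mul, abs_of_pos hβ0]
      exact mul_le_of_le_one_right hβ0.le (abs_spinU'_le hlk _)⟩)
    (fun y => by simp only [hu]; rw [mul_neg, hU, spinU_odd hlk, neg_div])
    (fun a b hab => div_le_div_of_nonneg_right
      ((monotone_of_deriv_nonneg hC.1 (spinU'_nonneg hlk)) (mul_le_mul_of_nonneg_left hab hs0)) hsc0.le)
    (fun x z hx hxz => by
      simp only [hu, ← mul_div_assoc]
      refine div_le_div_of_nonneg_right ?_ hsc0.le
      rcases hs0.eq_or_lt with hs' | hs'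
      · simp [← hs', hU, spinU_zero hlk]
      · have := hR k r hrmono l hlk (s * x) (s * z) (mul_nonneg hs0 hx)
          (mul_le_mul_of_nonneg_left hxz hs0)
        rw [← hU, mul_assoc, mul_assoc] at this
        exact le_of_mul_le_mul_left this hs')
    e2 (eW.trans_le hW)
  rw [eW, eg] at hkey
  have hst := h.stable hβ0.ne' hl hlk hlo hc
  have hco := mul_le_mul_of_nonneg_left (coef_first hrlo hl hlk) (sq_nonneg β)
  linarith

/-- Near minimisers at every inverse temperature at least one may be taken marginal. -/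
theorem marg_of (hS : SemiStmt) (hI : IneqStmt) (hR : RatioStmt) {β : ℝ} (hβ : 1 ≤ β) {δ : ℝ}
    (hδ : 0 < δ) : ∃ k₀ : ℕ, ∀ k : ℕ, k₀ ≤ k → ∀ q : ℕ → ℝ, IsPath k q →
      ∃ q', IsPath k q' ∧ valueSemi β k q' ≤ valueSemi β k q ∧ 1 - δ ≤ β * vOf k q' 0 := by
  obtain ⟨k₀, hk₀⟩ := exists_nat_gt (2 * β ^ 2 / δ)
  refine ⟨k₀, fun k hk q hq => ?_⟩
  have hβ0 : (0 : ℝ) < β := by linarith
  by_cases hv : 1 - δ ≤ β * vOf k q 0
  · exact ⟨q, hq, le_rfl, hv⟩
  obtain ⟨q', hq', hle⟩ := exists_isMinPath (β := β) hq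
  refine ⟨q', hq'.1, (hq'.valueSemi_le hS hβ0).trans (hle.trans (parisiP_le_valueSemi hS hβ0 hq
    (by linarith [not_le.1 hv]))), ?_⟩
  have h1 := hq'.margin hI hR hβ
  have hkk : 2 * β ^ 2 / δ ≤ (k : ℝ) + 1 := hk₀.le.trans (by exact_mod_cast hk.trans k.le_succ)
  have h2 : 5 / 3 * β ^ 2 * mass k ≤ δ := by
    rw [P157.Rsb.mass, mul_one_div, div_le_iff₀ (by positivity)]
    rw [div_le_iff₀ hδ] at hkk
    nlinarith [mul_pos hβ0 hβ0]
  linarith

/-- Seat D: near minimisers may be taken with a marginal first tail variable. -/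
theorem margStmt_of (hS : SemiStmt) (hI : IneqStmt) (hR : RatioStmt) : MargStmt :=
  fun _ hβ _ hδ => marg_of hS hI hR hβ.le hδ

end Vale.Agent.P146
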