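import Vale.Agent.P146.MargPins

/-!
# P146: the magnetisations over the field decrease

One step of the recursion keeps the property `h u' h ≤ u h`: after two integrations by parts it is
the Gram inequality `E X E (X U) ≤ E U E X ^ 2` of the tilted law, which holds pointwise after folding.
-/

open MeasureTheory ProbabilityTheory Real Filter Topology
open Vale.Agent.P157.Cube2
open Vale.Agent.P157.Rsb (lev)

namespace Vale.Agent.P146

/-- The ratio `U y / y` decreases on the half line. -/
def RatioDec (U : ℝ → ℝ) : Prop := ∀ x z, 0 ≤ x → x ≤ z → x * U z ≤ z * U x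

theorem ratioDec_of_deriv {v : ℝ → ℝ} (hd : Differentiable ℝ v) (h0 : v 0 = 0)
    (h : ∀ t, 0 < t → t * deriv v t ≤ v t) : RatioDec v := by
  intro x z hx hxz
  rcases hx.eq_or_lt with rfl | hx
  · simp [h0]
  have hm : AntitoneOn (fun t => v t / t) (Set.Ioi 0) := by
    refine antitoneOn_of_deriv_nonpos (convex_Ioi 0)
      (hd.continuous.continuousOn.div continuousOn_id fun t ht => ne_of_gt ht)
      (fun t ht => ?_) fun t ht => ?_
    all_goals rw [interior_Ioi, Set.mem_Ioi] at ht
    · exact ((hd t).div differentiableAt_id ht.ne').differentiableWithinAt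
    · rw [((hd t).hasDerivAt.fun_div (hasDerivAt_id' t) ht.ne').deriv]
      exact div_nonpos_of_nonpos_of_nonneg (by linarith [h t ht]) (sq_nonneg t)
  have := hm hx (hx.trans_le hxz) hxz
  simp only at this
  rw [div_le_div_iff₀ (hx.trans_le hxz) hx] at this
  linarith

theorem ratioDec_tanh : RatioDec tanh := by
  refine ratioDec_of_deriv (fun t => (hasDerivAt_tanh' t).differentiableAt) Real.tanh_zero fun t ht => ?_
  have h1 : 2 * t ≤ sinh (2 * t) := Real.self_le_sinh_iff.2 (by linarith)
  rw [Real.sinh_two_mul] at h1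
  have hc := cosh_pos t
  rw [(hasDerivAt_tanh' t).deriv, tanh_eq_sinh_div_cosh]
  have e : t * (1 - (sinh t / cosh t) ^ 2) = t / cosh t ^ 2 := by
    field_simp
    rw [Real.cosh_sq]
    ring
  rw [e, div_le_div_iff₀ (pow_pos hc 2) hc]
  nlinarith [mul_le_mul_of_nonneg_left h1 hc.le]

theorem ratioDec_tanh_mul {c : ℝ} (hc : 0 ≤ c) : RatioDec fun y => tanh (c * y) := by
  intro x z hx hxz
  rcases hc.eq_or_lt with rfl | hc
  · simp
  refine le_of_mul_le_mul_left ?_ hc
  simpa only [mul_assoc] using ratioDec_tanh (c * x) (c * z) (mul_nonneg hc.le hx)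
    (mul_le_mul_of_nonneg_left hxz hc.le)

/-- The Gram integrand of two odd functions with decreasing ratios is nonnegative. -/
theorem gram_pair {U T : ℝ → ℝ} (hU : RatioDec U) (hT : RatioDec T) (uod : ∀ x, U (-x) = -U x)
    (tod : ∀ x, T (-x) = -T x) (x z : ℝ) : 0 ≤ (z * U x - x * U z) * (z * T x - x * T z) := by
  have key : ∀ p q : ℝ, 0 ≤ p → 0 ≤ q → 0 ≤ (q * U p - p * U q) * (q * T p - p * T q) := by
    intro p q hp hq
    rcases le_total p q with e | e
    · exact mul_nonneg (sub_nonneg.2 (hU p q hp e)) (sub_nonneg.2 (hT p q hp e))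
    · exact mul_nonneg_of_nonpos_of_nonpos (sub_nonpos.2 (hU q p hq e)) (sub_nonpos.2 (hT q p hq e))
  rcases le_total 0 x with hx | hx <;> rcases le_total 0 z with hz | hz
  · exact key x z hx hz
  · have := key x (-z) hx (by linarith)
    simp only [uod, tod] at this
    linarith
  · have := key (-x) z (by linarith) hz
    simp only [uod, tod] at this
    linarith
  · have := key (-x) (-z) (by linarith) (by linarith)
    simp only [uod, tod] at this
    linarith

/-- The Gram inequality under a nonnegative weight. -/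
theorem gram {μ : Measure ℝ} [SFinite μ] {U T ρ : ℝ → ℝ} (hρ : ∀ x, 0 ≤ ρ x)
    (hU : RatioDec U) (hT : RatioDec T) (uod : ∀ x, U (-x) = -U x) (tod : ∀ x, T (-x) = -T x)
    (i1 : Integrable (fun x => U x * T x * ρ x) μ) (i2 : Integrable (fun x => x ^ 2 * ρ x) μ)
    (i3 : Integrable (fun x => x * U x * ρ x) μ) (i4 : Integrable (fun x => x * T x * ρ x) μ) :
    (∫ x, x * U x * ρ x ∂μ) * (∫ x, x * T x * ρ x ∂μ)
      ≤ (∫ x, U x * T x * ρ x ∂μ) * ∫ x, x ^ 2 * ρ x ∂μ := by
  have hp : 0 ≤ ∫ p : ℝ × ℝ, (p.2 * U p.1 - p.1 * U p.2) * (p.2 * T p.1 - p.1 * T p.2)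
      * (ρ p.1 * ρ p.2) ∂μ.prod μ :=
    integral_nonneg fun p => mul_nonneg (gram_pair hU hT uod tod _ _) (mul_nonneg (hρ _) (hρ _))
  have e : ∀ p : ℝ × ℝ, (p.2 * U p.1 - p.1 * U p.2) * (p.2 * T p.1 - p.1 * T p.2) * (ρ p.1 * ρ p.2)
      = (U p.1 * T p.1 * ρ p.1) * (p.2 ^ 2 * ρ p.2) + (p.1 ^ 2 * ρ p.1) * (U p.2 * T p.2 * ρ p.2)
        - ((p.1 * U p.1 * ρ p.1) * (p.2 * T p.2 * ρ p.2)
          + (p.1 * T p.1 * ρ p.1) * (p.2 * U p.2 * ρ p.2)) := fun p => by ring
  simp only [e] at hp
  rw [integral_sub ((i1.mul_prod i2).fun_add (i2.mul_prod i1))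
      ((i3.mul_prod i4).fun_add (i4.mul_prod i3)),
    integral_add (i1.mul_prod i2) (i2.mul_prod i1), integral_add (i3.mul_prod i4) (i4.mul_prod i3),
    integral_prod_mul (fun x => U x * T x * ρ x) fun x => x ^ 2 * ρ x,
    integral_prod_mul (fun x => x ^ 2 * ρ x) fun x => U x * T x * ρ x,
    integral_prod_mul (fun x => x * U x * ρ x) fun x => x * T x * ρ x,
    integral_prod_mul (fun x => x * T x * ρ x) fun x => x * U x * ρ x] at hp
  linarith

theorem tE_of_nonpos {m a : ℝ} (ha : a ≤ 0) (f φ : ℝ → ℝ) : tE m a f φ = φ := by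
  funext h
  simp [tE, num, den, sqrt_eq_zero'.2 ha]

/-- One step of the recursion keeps the decreasing ratio. -/
theorem mul_deriv_tE_le {m a h C : ℝ} {f : ℝ → ℝ} (hf : Pot f) (hfe : ∀ x, f (-x) = f x) (ha : 0 < a)
    (hB : Bd 1 C (deriv f)) (hR : RatioDec (deriv f)) (hh : 0 ≤ h) :
    h * deriv (tE m a f (deriv f)) h ≤ tE m a f (deriv f) h := by
  set s := √a with hs_def
  have hs : 0 < s := sqrt_pos.2 ha
  set c := h / s with hc
  have hc0 : 0 ≤ c := by positivity
  have hch : h = c * s := by rw [hc]; field_simp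
  set u : ℝ → ℝ := fun y => deriv f (s * y) with hu
  set W : ℝ → ℝ := fun y => exp (m * f (s * y)) * exp (c * y) with hW
  set E : ℝ := exp (-(c ^ 2 / 2))
  have hfc := hf.diff.continuous
  have huc : Continuous u := by have := hf.dcont; simp only [hu]; fun_prop
  have hWc : Continuous W := by simp only [hW]; fun_prop
  have hub : ∀ y, |u y| ≤ 1 := fun y => hf.dle _
  have hint : ∀ {G : ℝ → ℝ} {K : ℝ}, Continuous G → (∀ y, |G y| ≤ K * exp (2 * |y|)) →
      Integrable (fun y => G y * W y) γ₁ := by
    intro G K hG hK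
    refine ((int_exp_abs (2 + |m| * s + c)).const_mul (K * exp (|m| * |f 0|))).mono'
      (hG.mul hWc).aestronglyMeasurable (ae_of_all _ fun y => ?_)
    have hb : W y ≤ exp (|m| * |f 0|) * exp (|m| * s * |y|) * exp (c * |y|) := by
      refine mul_le_mul ?_ (exp_le_exp.2 (mul_le_mul_of_nonneg_left (le_abs_self y) hc0))
        (exp_pos _).le (by positivity)
      rw [← exp_add]
      refine exp_le_exp.2 ?_
      simpa using hf.bound (m := m) (a := a) 0 0 y
    rw [Real.norm_eq_abs, abs_mul, abs_of_nonneg (show 0 ≤ W y by simp only [hW]; positivity)]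
    refine (mul_le_mul (hK y) hb (by simp only [hW]; positivity)
      ((abs_nonneg _).trans (hK y))).trans_eq ?_
    rw [add_mul, add_mul, exp_add, exp_add]; ring
  have hy1 : ∀ y : ℝ, |y| ≤ 1 * exp (2 * |y|) := fun y => by
    rw [one_mul]; exact (abs_le_exp_abs y).trans (exp_le_exp.2 (by linarith [abs_nonneg y]))
  have hy2 : ∀ y : ℝ, |y * y| ≤ 1 * exp (2 * |y|) := fun y => by
    rw [one_mul, abs_mul, two_mul, exp_add]
    exact mul_le_mul (abs_le_exp_abs y) (abs_le_exp_abs y) (abs_nonneg y) (exp_pos _).le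
  have h0e : ∀ y : ℝ, 1 ≤ exp (2 * |y|) := fun y => one_le_exp (by positivity)
  have hyu : ∀ y : ℝ, |y * u y| ≤ 1 * exp (2 * |y|) := fun y => by
    rw [abs_mul]
    exact (mul_le_of_le_one_right (abs_nonneg y) (hub y)).trans (hy1 y)
  have hu1 : ∀ y : ℝ, |u y| ≤ 1 * exp (2 * |y|) := fun y => by
    rw [one_mul]; exact (hub y).trans (h0e y)
  have j0 : Integrable W γ₁ := by
    simpa using hint (G := fun _ => 1) (K := 1) continuous_const fun y => by
      rw [abs_one, one_mul]; exact h0e y
  have j1 : Integrable (fun y => y * W y) γ₁ := hint continuous_id hy1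
  have j2 : Integrable (fun y => y * y * W y) γ₁ := hint (by fun_prop) hy2
  have k0 : Integrable (fun y => u y * W y) γ₁ := hint huc hu1
  have k1 : Integrable (fun y => y * u y * W y) γ₁ := hint (by fun_prop) hyu
  -- the integrals in centred coordinates
  have cent : ∀ G : ℝ → ℝ, ∫ y, G (h + s * y) * exp (m * f (h + s * y)) ∂γ₁
      = E * ∫ y, G (s * y) * W y ∂γ₁ := fun G => by
    rw [hs_def, integral_centre ha h fun x => G x * exp (m * f x), ← integral_const_mul]
    refine integral_congr_ae (Eventually.of_forall fun y => ?_)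
    simp only [← hs_def, ← hc, hW, E, sub_eq_add_neg, exp_add]
    ring
  set A0 := ∫ y, W y ∂γ₁ with hA0
  set A1 := ∫ y, y * W y ∂γ₁ with hA1
  set A2 := ∫ y, y * y * W y ∂γ₁ with hA2
  set B0 := ∫ y, u y * W y ∂γ₁ with hB0
  set B1 := ∫ y, y * u y * W y ∂γ₁ with hB1
  have d0 : den m a f h = E * A0 := by
    simpa [den, ← hs_def] using cent fun _ => 1
  have n0 : num m a f (deriv f) h = E * B0 := cent _
  have d1 : ∫ y, y * exp (m * f (h + s * y)) ∂γ₁ = E * (A1 - c * A0) := by
    have := cent fun x => (x - h) / s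
    rw [show A1 - c * A0 = ∫ y, (s * y - h) / s * W y ∂γ₁ from ?_, ← this]
    · refine integral_congr_ae (Eventually.of_forall fun y => ?_)
      field_simp
      ring
    · rw [hA1, hA0, ← integral_const_mul, ← integral_sub j1 (j0.const_mul c)]
      refine integral_congr_ae (Eventually.of_forall fun y => ?_)
      simp only [hch]
      field_simp
  have n1 : ∫ y, y * (deriv f (h + s * y) * exp (m * f (h + s * y))) ∂γ₁ = E * (B1 - c * B0) := by
    have := cent fun x => (x - h) / s * deriv f x
    rw [show B1 - c * B0 = ∫ y, (s * y - h) / s * deriv f (s * y) * W y ∂γ₁ from ?_, ← this]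
    · refine integral_congr_ae (Eventually.of_forall fun y => ?_)
      field_simp
      ring
    · rw [hB1, hB0, ← integral_const_mul, ← integral_sub k1 (k0.const_mul c)]
      refine integral_congr_ae (Eventually.of_forall fun y => ?_)
      simp only [hch, hu]
      field_simp
  have hApos : 0 < A0 := by
    have := den_pos (m := m) (a := a) hf h
    rw [d0] at this
    exact (pos_iff_pos_of_mul_pos this).1 (exp_pos _)
  have hd : s * deriv (tE m a f (deriv f)) h * A0 ^ 2 = B1 * A0 - B0 * A1 := by
    have := deriv_tE_eq (m := m) (a := a) hf hB h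
    rw [← hs_def, n0, d0, d1, n1] at this
    refine mul_left_cancel₀ (pow_ne_zero 2 (exp_pos (-(c ^ 2 / 2))).ne') ?_
    linear_combination this
  -- integration by parts
  have hWd : ∀ y, HasDerivAt W ((c + m * s * u y) * W y) y := fun y => by
    have h1 : HasDerivAt (fun y => s * y) s y := by simpa using (hasDerivAt_id y).const_mul s
    have h2 := (((hf.diff _).hasDerivAt.comp y h1).const_mul m).exp
    have h3 := ((hasDerivAt_id y).const_mul c).exp
    refine (h2.mul h3).congr_deriv ?_
    simp only [hW, hu, Function.comp_apply, id_eq]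
    ring
  have s1 : A1 = c * A0 + m * s * B0 := by
    have := P150.stein hWd j0
      (((j0.const_mul c).fun_add (k0.const_mul (m * s))).congr
        (Eventually.of_forall fun y => by ring)) j1
    simp only [P150.std] at this
    rw [hA1, this, hA0, hB0, ← integral_const_mul, ← integral_const_mul,
      ← integral_add (j0.const_mul c) (k0.const_mul (m * s))]
    exact integral_congr_ae (Eventually.of_forall fun y => by ring)
  have s2 : A2 = A0 + c * A1 + m * s * B1 := by
    have := P150.stein (φ := fun y => y * W y)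
      (φ' := fun y => W y + y * ((c + m * s * u y) * W y))
      (fun y => ((hasDerivAt_id' y).fun_mul (hWd y)).congr_deriv (by ring)) j1
      (((j0.fun_add (j1.const_mul c)).fun_add (k1.const_mul (m * s))).congr
        (Eventually.of_forall fun y => by ring))
      (j2.congr (Eventually.of_forall fun y => by ring))
    simp only [P150.std] at this
    rw [show A2 = ∫ y, y * (y * W y) ∂γ₁ from integral_congr_ae (Eventually.of_forall fun y => by ring),
      this, hA0, hA1, hB1, ← integral_const_mul, ← integral_const_mul,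
      ← integral_add j0 (j1.const_mul c), ← integral_add (j0.fun_add (j1.const_mul c))
        (k1.const_mul (m * s))]
    exact integral_congr_ae (Eventually.of_forall fun y => by ring)
  -- folding
  set T : ℝ → ℝ := fun y => tanh (c * y) with hT
  set ρ : ℝ → ℝ := fun y => exp (m * f (s * y)) * cosh (c * y) with hρ
  have fold : ∀ {G H : ℝ → ℝ}, Integrable (fun y => G y * W y) γ₁ →
      (∀ y, (G y * W y + G (-y) * W (-y)) / 2 = H y * ρ y) →
      Integrable (fun y => H y * ρ y) γ₁ ∧ ∫ y, G y * W y ∂γ₁ = ∫ y, H y * ρ y ∂γ₁ := by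
    intro G H hG e
    have hG' : Integrable (fun y => G (-y) * W (-y)) γ₁ :=
      (mp_neg.integrable_comp_emb (Homeomorph.neg ℝ).measurableEmbedding).2 hG
    refine ⟨((hG.fun_add hG').div_const 2).congr (Eventually.of_forall e), ?_⟩
    rw [← integral_congr_ae (Eventually.of_forall e), integral_div, integral_add hG hG',
      integral_neg_γ fun y => G y * W y]
    ring
  have huo : ∀ y, u (-y) = -u y := fun y => by
    simp only [hu, mul_neg]; exact deriv_neg_of_even hf.diff hfe _
  have hTo : ∀ y, T (-y) = -T y := fun y => by simp only [hT, mul_neg, tanh_neg]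
  have hW' : ∀ y, W (-y) = exp (m * f (s * y)) * exp (-(c * y)) := fun y => by
    simp only [hW, mul_neg, hfe]
  have hTρ : ∀ y, T y * ρ y = exp (m * f (s * y)) * sinh (c * y) := fun y => by
    simp only [hT, hρ, tanh_eq_sinh_div_cosh]
    field_simp [(cosh_pos (c * y)).ne']
  obtain ⟨i1, e1⟩ := fold (H := fun y => y * T y) j1 fun y => by
    rw [mul_assoc y (T y), hTρ, hW', sinh_eq]; simp only [hW]; ring
  obtain ⟨i2, e2⟩ := fold (H := fun y => y ^ 2) j2 fun y => by
    rw [hW']; simp only [hW, hρ, cosh_eq]; ring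
  obtain ⟨i3, e3⟩ := fold (H := fun y => y * u y) k1 fun y => by
    rw [hW', huo]; simp only [hW, hρ, cosh_eq]; ring
  obtain ⟨i4, e4⟩ := fold (H := fun y => u y * T y) k0 fun y => by
    rw [mul_assoc (u y) (T y), hTρ, hW', huo, sinh_eq]; simp only [hW]; ring
  have huR : RatioDec u := by
    intro x z hx hxz
    refine le_of_mul_le_mul_left ?_ hs
    simpa only [hu, mul_assoc] using hR (s * x) (s * z) (mul_nonneg hs.le hx)
      (mul_le_mul_of_nonneg_left hxz hs.le)
  have hg := gram (μ := γ₁) (ρ := ρ) (fun y => mul_nonneg (exp_pos _).le (cosh_pos _).le)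
    huR (ratioDec_tanh_mul hc0) huo hTo i4 i2 i3 i1
  rw [← e3, ← e1, ← e4, ← e2, ← hA1, ← hA2, ← hB0, ← hB1] at hg
  -- conclusion
  rw [show tE m a f (deriv f) h = B0 / A0 by
    rw [tE, n0, d0]; exact mul_div_mul_left _ _ (exp_pos _).ne', le_div_iff₀ hApos]
  refine le_of_mul_le_mul_right ?_ hApos
  calc h * deriv (tE m a f (deriv f)) h * A0 * A0
      = c * (s * deriv (tE m a f (deriv f)) h * A0 ^ 2) := by rw [hch]; ring
    _ = c * (B1 * A0 - B0 * A1) := by rw [hd]
    _ ≤ B0 * A0 := by
        have : B0 * A0 - c * (B1 * A0 - B0 * A1) = B0 * A2 - B1 * A1 := by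
          linear_combination B1 * s1 - B0 * s2
        linarith

/-- The magnetisations over the field decrease. -/
theorem ratioStmt : RatioStmt := by
  intro k r _ j hj
  refine spinF_induction (P := fun j => RatioDec (spinU k r j)) ?_ ?_ hj
  · rw [spinU, spinF_top, deriv_logcosh]; exact ratioDec_tanh
  intro j h1 h2 ih
  rcases le_or_gt (r j - r (j - 1)) 0 with ha | ha
  · rw [spinU_step h1 h2, tE_of_nonpos ha]; exact ih
  obtain ⟨C, hC⟩ := bd2_u (r := r) h2
  obtain ⟨D, hD⟩ := bd2_u (r := r) (show j - 1 ≤ k by omega)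
  refine ratioDec_of_deriv hD.1 (spinU_zero (by omega)) fun t ht => ?_
  rw [spinU_step h1 h2]
  exact mul_deriv_tE_le (pot_spinF h2) (spinF_neg h2) ha hC.down ih ht.le

end Vale.Agent.P146
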