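import Vale.Agent.P157.Rsb.CalcCore
import Vale.Agent.P166.Rsb.Main
import Vale.Agent.P166.Rsb.FormulaApprox

/-!
# P146: the mean of a nonnegative spectral statistic under the Gibbs measure

Moving the spectrum down by `u f` lowers the variational functional of every path by at least the
drop of `gSph` at the largest argument of that path.  So if the near minimisers have largest
argument at least `x`, the upper bound at the moved spectrum and the limit at the spectrum itself
bound the Gibbs mean of `f` from below.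
-/

open MeasureTheory Real Filter Topology Finset
open Vale.Agent.P157.Rsb (IsPath vOf lev)
open Vale.Agent.P157.Cube2 (spinSup)
open Vale.Agent.P166
open Vale.Agent.P166.Rsb

namespace Vale.Agent.P146

variable {k : ℕ} {q : ℕ → ℝ}

/-- A nondecreasing functional dominates its value at the largest tail variable. -/
theorem le_comb_of_mono (hq : IsPath k q) {φ : ℝ → ℝ}
    (h : ∀ x y, 0 ≤ x → x ≤ y → y ≤ 1 → φ x ≤ φ y) : φ (vOf k q 0) ≤ comb k q φ := by
  have hlev : ∀ i ∈ range k, φ (vOf k q i) - φ (vOf k q (i + 1))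
      ≤ (φ (vOf k q i) - φ (vOf k q (i + 1))) / lev k (i + 1) := fun i hi => by
    have hi := mem_range.1 hi
    exact le_div_self (sub_nonneg.2 (h _ _ (vOf_nonneg hq _) (vOf_anti hq hi) (vOf_le_one hq hi.le)))
      (lev_pos' k i) (Vale.Agent.P157.Rsb.lev_le_one (by omega))
  calc φ (vOf k q 0) = φ (vOf k q k) + ∑ i ∈ range k, (φ (vOf k q i) - φ (vOf k q (i + 1))) := by
        rw [sum_range_sub' fun i => φ (vOf k q i)]; ring
    _ ≤ _ := add_le_add le_rfl (sum_le_sum hlev)

variable {μ : Measure ℝ} [IsProbabilityMeasure μ] {b lo : ℝ}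

omit [IsProbabilityMeasure μ] in
theorem ae_mem_support (hb : IsTopEdge μ b) (hlo : μ (Set.Iio lo) = 0) :
    ∀ᵐ t ∂μ, t ∈ Set.Icc lo b := by
  filter_upwards [measure_eq_zero_iff_ae_notMem.1 hb.1, measure_eq_zero_iff_ae_notMem.1 hlo] with t h1 h2
  exact ⟨not_lt.1 h2, not_lt.1 h1⟩

omit [IsProbabilityMeasure μ] in
/-- A continuous strictly increasing map carries the top edge along. -/
theorem isTopEdge_map (hb : IsTopEdge μ b) {φ : ℝ → ℝ} (hc : Continuous φ) (hs : StrictMono φ) :
    IsTopEdge (μ.map φ) (φ b) := by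
  refine ⟨?_, fun ε hε => ?_⟩
  · rw [Measure.map_apply hc.measurable measurableSet_Ioi]
    refine measure_mono_null (fun t (ht : φ b < φ t) => hs.lt_iff_lt.1 ht) hb.1
  · rw [Measure.map_apply hc.measurable measurableSet_Ioi]
    obtain ⟨δ, hδ, hball⟩ := Metric.continuous_iff.1 hc b ε hε
    refine (hb.2 δ hδ).trans_le (measure_mono fun t (ht : b - δ < t) => ?_)
    rcases lt_or_ge t b with h | h
    · have := hball t (by rw [Real.dist_eq, abs_lt]; constructor <;> linarith)
      rw [Real.dist_eq, abs_lt] at this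
      show φ b - ε < φ t
      linarith
    · exact (show φ b - ε < φ b by linarith).trans_le (hs.monotone h)

/-- The value of `gSph` at the point of its Stieltjes transform is attained there. -/
theorem gSph_at_stieltjes (hb : IsTopEdge μ b) (hlo : μ (Set.Iio lo) = 0) {z : ℝ} (hz : b < z)
    (hx : 0 < ∫ t, 1 / (z - t) ∂μ) :
    (z * (∫ t, 1 / (z - t) ∂μ) - 1 - log (∫ t, 1 / (z - t) ∂μ) - ∫ t, log (z - t) ∂μ) / 2
      ≤ gSph μ b (∫ t, 1 / (z - t) ∂μ) := by
  set x := ∫ t, 1 / (z - t) ∂μ with hxd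
  have hsupp := ae_mem_support hb hlo
  have hinv : Integrable (fun t => 1 / (z - t)) μ := by
    refine Integrable.of_bound ((measurable_id.const_sub z).const_div 1).aestronglyMeasurable
      (1 / (z - b)) (hsupp.mono fun t ht => ?_)
    rw [norm_eq_abs, abs_of_pos (one_div_pos.2 (by linarith [ht.2]))]
    exact one_div_le_one_div_of_le (by linarith) (by linarith [ht.2])
  rw [gSph, if_neg (not_le.2 hx)]
  refine le_csInf (Set.nonempty_Ioi.image _) ?_
  rintro _ ⟨w, hw, rfl⟩
  have hw : b < w := hw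
  have hlog : ∀ {v : ℝ}, b < v → Integrable (fun t => log (v - t)) μ := fun hv =>
    integrable_log_sub (r := id) measurable_id hsupp hv
  have h : ∫ t, log (w - t) ∂μ - ∫ t, log (z - t) ∂μ ≤ (w - z) * x := by
    rw [← integral_sub (hlog hw) (hlog hz), hxd, ← integral_const_mul]
    refine integral_mono_ae ((hlog hw).sub (hlog hz)) (hinv.const_mul _) (hsupp.mono fun t ht => ?_)
    have h1 : 0 < w - t := by linarith [ht.2]
    have h2 : 0 < z - t := by linarith [ht.2]
    show log (w - t) - log (z - t) ≤ (w - z) * (1 / (z - t))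
    rw [← log_div h1.ne' h2.ne']
    refine (log_le_sub_one_of_pos (div_pos h1 h2)).trans (le_of_eq ?_)
    field_simp
    ring
  show _ ≤ (w * x - 1 - log x - ∫ t, log (w - t) ∂μ) / 2
  linarith

variable {f : ℝ → ℝ} {B u z : ℝ}

/-- The drop of `gSph` at one point when the spectrum moves down by `u f`. -/
theorem gSph_drop (hb : IsTopEdge μ b) (hlo : μ (Set.Iio lo) = 0) (hf : Continuous f)
    (hf0 : ∀ t, 0 ≤ f t) (hfB : ∀ t, f t ≤ B) (hu : 0 ≤ u) (hbb : ∀ t ≤ b, t - u * f t ≤ b - u * f b)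
    (hz : b < z) (hx : 0 < ∫ t, 1 / (z - t) ∂μ) :
    u / 2 * (∫ t, f t / (z - t) ∂μ) - u ^ 2 * B ^ 2 / (2 * (z - b) ^ 2)
      ≤ gSph μ b (∫ t, 1 / (z - t) ∂μ)
        - gSph (μ.map fun t => t - u * f t) (b - u * f b) (∫ t, 1 / (z - t) ∂μ) := by
  set x := ∫ t, 1 / (z - t) ∂μ
  set φ : ℝ → ℝ := fun t => t - u * f t with hφ
  have hφm : Measurable φ := (continuous_id.sub (hf.const_smul u)).measurable
  have hB : 0 ≤ B := (hf0 0).trans (hfB 0)
  have hsupp := ae_mem_support hb hlo
  have hsuppφ : ∀ᵐ t ∂μ, φ t ∈ Set.Icc (lo - u * B) b := hsupp.mono fun t ht => by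
    have h1 := mul_nonneg hu (hf0 t)
    have h2 := mul_le_mul_of_nonneg_left (hfB t) hu
    constructor <;> simp only [hφ] <;> linarith [ht.1, ht.2]
  have hlt : b - u * f b < z := by linarith [mul_nonneg hu (hf0 b)]
  have hup : gSph (μ.map φ) (b - u * f b) x
      ≤ (z * x - 1 - log x - ∫ t, log (z - φ t) ∂μ) / 2 := by
    rw [gSph_map hφm _ hx]
    refine csInf_le ⟨(lo - u * B) * x / 2, ?_⟩ ⟨z, hlt, rfl⟩
    rintro _ ⟨v, hv, rfl⟩
    have h := mul_le_spec (P := μ) (r := φ) (c := lo - u * B) (b := b - u * f b) (z := v) (x := x) hφm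
      ((hsupp.and hsuppφ).mono fun t ht => ⟨ht.2.1, hbb t ht.1.2⟩) hv hx
    linarith
  have hat := gSph_at_stieltjes hb hlo hz hx
  have i1 : Integrable (fun t => log (z - t)) μ := integrable_log_sub (r := id) measurable_id hsupp hz
  have i2 : Integrable (fun t => log (z - φ t)) μ := integrable_log_sub hφm hsuppφ hz
  have i3 : Integrable (fun t => f t / (z - t)) μ := by
    refine Integrable.of_bound (hf.measurable.div (measurable_id.const_sub z)).aestronglyMeasurable
      (B / (z - b)) (hsupp.mono fun t ht => ?_)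
    rw [norm_eq_abs, abs_of_nonneg (div_nonneg (hf0 t) (by linarith [ht.2]))]
    exact div_le_div₀ hB (hfB t) (by linarith) (by linarith [ht.2])
  have h : u * ∫ t, f t / (z - t) ∂μ - u ^ 2 * B ^ 2 / (z - b) ^ 2
      ≤ ∫ t, log (z - φ t) ∂μ - ∫ t, log (z - t) ∂μ := by
    rw [← integral_sub i2 i1, ← integral_const_mul,
      show u ^ 2 * B ^ 2 / (z - b) ^ 2 = ∫ _, u ^ 2 * B ^ 2 / (z - b) ^ 2 ∂μ by simp,
      ← integral_sub (i3.const_mul u) (integrable_const _)]
    refine integral_mono_ae ((i3.const_mul u).sub (integrable_const _)) (i2.sub i1)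
      (hsupp.mono fun t ht => ?_)
    have h1 : 0 < z - b := by linarith
    have h2 : z - b ≤ z - t := by linarith [ht.2]
    have h2' : 0 < z - t := h1.trans_le h2
    set s := u * f t
    have hs : 0 ≤ s := mul_nonneg hu (hf0 t)
    have h3 : 0 < z - φ t := by simp only [hφ]; linarith
    show u * (f t / (z - t)) - u ^ 2 * B ^ 2 / (z - b) ^ 2 ≤ log (z - φ t) - log (z - t)
    rw [← log_div h3.ne' h2'.ne']
    refine le_trans ?_ (one_sub_inv_le_log_of_pos (div_pos h3 h2'))
    have e : 1 - ((z - φ t) / (z - t))⁻¹ = u * (f t / (z - t)) - s ^ 2 / ((z - t) * (z - t + s)) := by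
      simp only [hφ, s]
      rw [inv_div]
      have p1 : z - t ≠ 0 := h2'.ne'
      have p2 : z - t + u * f t ≠ 0 := (add_pos_of_pos_of_nonneg h2' hs).ne'
      rw [show z - (t - u * f t) = z - t + u * f t by ring]
      field_simp
      ring
    rw [e]
    refine sub_le_sub_left (div_le_div₀ (by positivity) ?_ (by positivity) ?_) _
    · rw [← mul_pow]
      exact pow_le_pow_left₀ hs (mul_le_mul_of_nonneg_left (hfB t) hu) 2
    · rw [pow_two]
      exact mul_le_mul h2 (h2.trans (le_add_of_nonneg_right hs)) h1.le h2'.le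
  have e : u ^ 2 * B ^ 2 / (2 * (z - b) ^ 2) = u ^ 2 * B ^ 2 / (z - b) ^ 2 / 2 := by
    rw [div_div, mul_comm 2]
  linarith

/-- Moving the spectrum down lowers the energy of a path by at least the drop at one point. -/
theorem eng_drop (hb : IsTopEdge μ b) (hlo : μ (Set.Iio lo) = 0) (hf : Continuous f)
    (hf0 : ∀ t, 0 ≤ f t) (hfB : ∀ t, f t ≤ B) (hu : 0 ≤ u) (hbb : ∀ t ≤ b, t - u * f t ≤ b - u * f b)
    (hz : b < z) (hx : 0 < ∫ t, 1 / (z - t) ∂μ) {β : ℝ} (hβ : 0 ≤ β) (hq : IsPath k q)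
    (hxq : ∫ t, 1 / (z - t) ∂μ ≤ β * vOf k q 0) :
    u / 2 * (∫ t, f t / (z - t) ∂μ) - u ^ 2 * B ^ 2 / (2 * (z - b) ^ 2)
      ≤ eng μ b β k q - eng (μ.map fun t => t - u * f t) (b - u * f b) β k q := by
  set φ : ℝ → ℝ := fun t => t - u * f t with hφ
  set D : ℝ → ℝ := fun v => gSph μ b v - gSph (μ.map φ) (b - u * f b) v with hD
  have hφm : Measurable φ := (continuous_id.sub (hf.const_smul u)).measurable
  have hsupp := ae_mem_support hb hlo
  have hub : u * f b ≤ u * B := mul_le_mul_of_nonneg_left (hfB b) hu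
  have h1 : ∀ᵐ t ∂μ, id t ∈ Set.Icc (lo - u * B) b := hsupp.mono fun t ht =>
    ⟨by show lo - u * B ≤ t; linarith [ht.1, mul_nonneg hu ((hf0 b).trans (hfB b))], ht.2⟩
  have h2 : ∀ᵐ t ∂μ, φ t ∈ Set.Icc (lo - u * B) (b - u * f b) := hsupp.mono fun t ht =>
    ⟨by simp only [hφ]; linarith [ht.1, mul_le_mul_of_nonneg_left (hfB t) hu], hbb t ht.2⟩
  have hmono : ∀ x y, 0 ≤ x → x ≤ y → D x ≤ D y := fun x y hx hxy => by
    have h := gSph_map_incr (P := μ) (δ := 0) measurable_id hφm h1 h2
      (by linarith [mul_nonneg hu (hf0 b)])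
      (ae_of_all _ fun t => by simp only [hφ, id]; linarith [mul_nonneg hu (hf0 t)]) hx hxy
    rw [Measure.map_id] at h
    simp only [hD]
    linarith
  have h := le_comb_of_mono hq (φ := fun v => D (β * v))
    fun a b' ha hab _ => hmono _ _ (mul_nonneg hβ ha) (mul_le_mul_of_nonneg_left hab hβ)
  simp only [hD, comb_sub] at h
  refine le_trans ?_ h
  exact (gSph_drop hb hlo hf hf0 hfB hu hbb hz hx).trans (hmono _ _ hx.le hxq)

/-- If near minimisers have largest argument at least the Stieltjes transform at `z`, the Gibbs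
mean of a nonnegative Lipschitz statistic is asymptotically at least its transform at `z`. -/
theorem weight_mean_ge (hUp : UpperStmt) (hX : ApproxStmt) (hb : IsTopEdge μ b)
    (hlo : μ (Set.Iio lo) = 0) {lam : ∀ N, Fin N → ℝ} (hlam : Admissible μ b lam) {β : ℝ}
    (hβ : 0 < β) {l : ℝ} (hl : IsGLB (formulaValues μ b β) l)
    (hlow : ∀ ε : ℝ, 0 < ε → ∀ᶠ N in atTop, ∀ m : Measure (Fin N → Fin N → ℝ), IsHaarOrth m →
      l - ε ≤ ∫ U, press β (lam N) U ∂m)
    {L : ℝ} (hL : 0 ≤ L) (hfL : ∀ s t, |f s - f t| ≤ L * |s - t|)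
    (hf0 : ∀ t, 0 ≤ f t) (hfB : ∀ t, f t ≤ B) (hz : b < z) {ε₀ : ℝ} (hε₀ : 0 < ε₀)
    (hnear : ∀ (k : ℕ) (q : ℕ → ℝ), IsPath k q → spinSup k q + eng μ b β k q ≤ l + ε₀ →
      ∫ t, 1 / (z - t) ∂μ ≤ β * vOf k q 0) {ε : ℝ} (hε : 0 < ε) :
    ∀ᶠ N in atTop, ∀ m : Measure (Fin N → Fin N → ℝ), IsHaarOrth m →
      ∫ t, f t / (z - t) ∂μ - ε
        ≤ β / N * ∫ U, ∑ i, f (lam N i) * weight β (lam N) U i ∂m := by
  have hB : 0 ≤ B := (hf0 0).trans (hfB 0)
  have hf : Continuous f := (LipschitzWith.of_dist_le' fun s t => by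
    rw [Real.dist_eq, Real.dist_eq]; exact hfL s t).continuous
  have hsupp := ae_mem_support hb hlo
  have hx : 0 < ∫ t, 1 / (z - t) ∂μ := by
    have hi : Integrable (fun t => 1 / (z - t)) μ := by
      refine Integrable.of_bound ((measurable_id.const_sub z).const_div 1).aestronglyMeasurable
        (1 / (z - b)) (hsupp.mono fun t ht => ?_)
      rw [norm_eq_abs, abs_of_pos (one_div_pos.2 (by linarith [ht.2]))]
      exact one_div_le_one_div_of_le (by linarith) (by linarith [ht.2])
    have h : ∀ᵐ t ∂μ, 1 / (z - lo) ≤ 1 / (z - t) := hsupp.mono fun t ht =>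
      one_div_le_one_div_of_le (by linarith [ht.2]) (by linarith [ht.1])
    have hlb : lo ≤ b := by
      obtain ⟨t, ht⟩ := hsupp.exists
      linarith [ht.1, ht.2]
    refine (one_div_pos.2 (by linarith : (0 : ℝ) < z - lo)).trans_le ?_
    simpa using integral_mono_ae (integrable_const _) hi h
  set C := B ^ 2 / (z - b) ^ 2
  set u := min (1 / (2 * (L + 1))) (ε / (2 * (C + 1))) with hud
  have hu : 0 < u := lt_min (by positivity) (by positivity)
  have huL : u * L ≤ 1 / 2 :=
    (mul_le_mul_of_nonneg_right (min_le_left _ _) hL).trans (by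
      rw [div_mul_eq_mul_div, div_le_iff₀ (by positivity)]; linarith)
  have huC : u * C ≤ ε / 2 :=
    (mul_le_mul_of_nonneg_right (min_le_right _ _) (by positivity)).trans (by
      rw [div_mul_eq_mul_div, div_le_iff₀ (by positivity)]; nlinarith [hε.le])
  set φ : ℝ → ℝ := fun t => t - u * f t with hφ
  have hφc : Continuous φ := continuous_id.sub (hf.const_smul u)
  have hdiff : ∀ s t, |u * f s - u * f t| ≤ |s - t| / 2 := fun s t => by
    rw [← mul_sub, abs_mul, abs_of_pos hu]
    refine (mul_le_mul_of_nonneg_left (hfL s t) hu.le).trans ?_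
    rw [← mul_assoc]
    linarith [mul_le_mul_of_nonneg_right huL (abs_nonneg (s - t))]
  have hφs : StrictMono φ := fun s t hst => by
    have h := (abs_le.1 (hdiff s t)).1
    rw [abs_sub_comm, abs_of_pos (sub_pos.2 hst)] at h
    simp only [hφ]
    linarith
  have hμφ : IsProbabilityMeasure (μ.map φ) := Measure.isProbabilityMeasure_map hφc.measurable.aemeasurable
  have hbφ := isTopEdge_map hb hφc hφs
  have hloφ : ∃ lo', (μ.map φ) (Set.Iio lo') = 0 := ⟨φ lo, by
    rw [Measure.map_apply hφc.measurable measurableSet_Iio]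
    exact measure_mono_null (fun t (ht : φ t < φ lo) => hφs.lt_iff_lt.1 ht) hlo⟩
  have hlamφ : Admissible (μ.map φ) (φ b) fun N i => φ (lam N i) := by
    refine ⟨fun g hg hgb => ?_, fun e he => ?_, ?_⟩
    · rw [integral_map hφc.measurable.aemeasurable hg.aestronglyMeasurable]
      exact hlam.1 _ (hg.comp hφc) ⟨hgb.choose, fun t => hgb.choose_spec _⟩
    · filter_upwards [hlam.2.1 (e / 2) (half_pos he)] with N hN i
      refine (hφs.monotone (hN i)).trans ?_
      have h := (abs_le.1 (hdiff (b + e / 2) b)).1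
      rw [add_sub_cancel_left, abs_of_pos (half_pos he)] at h
      simp only [hφ]
      linarith
    · obtain ⟨a, ha⟩ := hlam.2.2
      exact ⟨φ a, ha.mono fun N hN i => hφs.monotone (hN i)⟩
  set η := u * ε / 12
  have hη : 0 < η := by positivity
  obtain ⟨_, ⟨k, q, hq, rfl⟩, -, hqv⟩ :=
    hl.exists_between (show l < l + min ε₀ η by linarith [lt_min hε₀ hη])
  have hxq := hnear k q hq (hqv.le.trans (by linarith [min_le_left ε₀ η]))
  have hdrop := eng_drop hb hlo hf hf0 hfB hu.le (fun t ht => hφs.monotone ht) hz hx hβ.le hq hxq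
  filter_upwards [upper_law hUp hX hbφ hloφ hlamφ hβ hη hq, hlow η hη, eventually_ge_atTop 1]
    with N hN1 hN2 hN m hm
  have := hm.1
  have hN0 : N ≠ 0 := Nat.one_le_iff_ne_zero.1 hN
  set W : (Fin N → Fin N → ℝ) → ℝ := fun U => ∑ i, f (lam N i) * weight β (lam N) U i
  have hW : Integrable W m := integrable_finsetSum _ fun i _ => (integrable_weight hm _ i).const_mul _
  have i0 := integrable_press hm hβ.le hN0 (lam N)
  have i1 := integrable_press hm hβ.le hN0 fun i => φ (lam N i)
  have key : ∫ U, press β (lam N) U ∂m - ∫ U, press β (fun i => φ (lam N i)) U ∂m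
      ≤ u / 2 * (β / N * ∫ U, W U ∂m) := by
    rw [← integral_sub i0 i1, ← integral_const_mul, ← integral_const_mul]
    refine integral_mono (i0.sub i1) ((hW.const_mul _).const_mul _) fun U => ?_
    have h := press_tangent (β := β) (lam N) (fun i => φ (lam N i)) U
    have e : β / (2 * N) * ∑ i, (φ (lam N i) - lam N i) * weight β (lam N) U i
        = -(u / 2 * (β / N * W U)) := by
      simp only [hφ, W, mul_sum, ← sum_neg_distrib]
      exact sum_congr rfl fun i _ => by ring
    show press β (lam N) U - press β (fun i => φ (lam N i)) U ≤ u / 2 * (β / N * W U)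
    linarith
  have h1 := hN1 m hm
  have h2 := hN2 m hm
  have hmin := min_le_right ε₀ η
  set A := ∫ t, f t / (z - t) ∂μ
  set R := β / N * ∫ U, W U ∂m
  have hC : u ^ 2 * B ^ 2 / (2 * (z - b) ^ 2) = u / 2 * (u * C) := by
    have : z - b ≠ 0 := (sub_pos.2 hz).ne'
    simp only [C]; field_simp
  have hCε : u / 2 * (u * C) ≤ u / 2 * (ε / 2) := mul_le_mul_of_nonneg_left huC (by positivity)
  have : u / 2 * (A - ε) ≤ u / 2 * R := by
    have : 3 * η ≤ u / 2 * (ε / 2) := by simp only [η]; linarith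
    linarith
  exact le_of_mul_le_mul_left this (by positivity)

end Vale.Agent.P146
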