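import Vale.Agent.P146.Semi
import Vale.Agent.P146.Spectral

/-!
# P146: the functional at the semicircle law

`gSph semi 2 x` is `x² / 4` up to `x = 1` and grows more slowly after it, so the energy of a path is
at most the quadratic one, with equality when its largest argument is at most one.
-/

open MeasureTheory Real Filter Topology Finset Polynomial
open Vale.Agent.P157.Rsb (IsPath vOf lev mass)
open Vale.Agent.P166.Rsb (comb eng gSph vOf_step vOf_top vOf_anti vOf_nonneg comb_mono comb_const_mul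
  lev_pos' mul_le_spec gSph_map)

namespace Vale.Agent.P146

/-- The objective of `gSph` at `w + 1/w`. -/
noncomputable def objW (w x : ℝ) : ℝ :=
  ((w + 1 / w) * x - 1 - log x - (w ^ 2 / 2 - log w)) / 2

theorem gSph_le_objW {w x : ℝ} (h0 : 0 < w) (h1 : w < 1) (hx : 0 < x) :
    gSph semi 2 x ≤ objW w x := by
  rw [gSph, if_neg (not_le.2 hx), objW, ← log_potential h0 h1]
  refine csInf_le ⟨(-2) * x / 2, ?_⟩ ⟨w + 1 / w, zOne_gt h0 h1, rfl⟩
  rintro _ ⟨z, hz, rfl⟩
  have h := mul_le_spec (P := semi) (r := id) (c := -2) (b := 2) (x := x) measurable_id ae_semi hz hx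
  simp only [id_eq] at h
  linarith

/-- Below one. -/
theorem gSph_semi_low {x : ℝ} (h0 : 0 ≤ x) (h1 : x < 1) : gSph semi 2 x = x ^ 2 / 4 := by
  rcases eq_or_lt_of_le h0 with rfl | h0
  · simp [gSph]
  have e : objW x x = x ^ 2 / 4 := by simp only [objW]; field_simp; ring
  refine le_antisymm ((gSph_le_objW h0 h1 h0).trans e.le) (e.symm.le.trans ?_)
  have h := gSph_at_stieltjes isTopEdge_semi semi_Iio (zOne_gt h0 h1)
    (by rw [stieltjes_semi h0 h1]; exact h0)
  rw [stieltjes_semi h0 h1, log_potential h0 h1] at h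
  exact h

/-- From one on. -/
theorem gSph_semi_high {x : ℝ} (hx : 1 ≤ x) : gSph semi 2 x = x - 3 / 4 - log x / 2 := by
  have hx0 : 0 < x := by linarith
  have e1 : objW 1 x = x - 3 / 4 - log x / 2 := by simp [objW]; ring
  refine le_antisymm ?_ ?_
  · rw [← e1]
    have hc : ContinuousAt (fun w => objW w x) 1 := by
      unfold objW
      fun_prop (disch := norm_num)
    refine ge_of_tendsto (hc.tendsto.mono_left (nhdsWithin_le_nhds (s := Set.Iio 1))) ?_
    filter_upwards [Ioo_mem_nhdsLT (show (0 : ℝ) < 1 by norm_num)] with w hw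
    exact gSph_le_objW hw.1 hw.2 hx0
  · rw [← e1, gSph, if_neg (not_le.2 hx0)]
    refine le_csInf (Set.nonempty_Ioi.image _) ?_
    rintro _ ⟨z, hz, rfl⟩
    have hz : 2 < z := hz
    set r := √(z ^ 2 - 4)
    have hr : r ^ 2 = z ^ 2 - 4 := Real.sq_sqrt (by nlinarith)
    have hr0 : 0 ≤ r := Real.sqrt_nonneg _
    set w := (z - r) / 2
    have h0 : 0 < w := by
      have : r < z := by nlinarith
      simp only [w]; linarith
    have h1 : w < 1 := by
      have : z - 2 < r := by nlinarith
      simp only [w]; linarith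
    have hw : w + 1 / w = z := by
      field_simp
      simp only [w]
      linear_combination hr / 4
    show objW 1 x ≤ (z * x - 1 - log x - ∫ t, log (z - t) ∂semi) / 2
    rw [← hw, log_potential h0 h1]
    have hanti : AntitoneOn (fun v => v + 1 / v + log v - v ^ 2 / 2) (Set.Ioi (0 : ℝ)) := by
      refine antitoneOn_of_deriv_nonpos (convex_Ioi _) (fun v (hv : 0 < v) => ?_) (fun v hv => ?_) fun v hv => ?_
      · exact (ContinuousAt.continuousWithinAt (by fun_prop (disch := exact hv.ne')))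
      · rw [interior_Ioi] at hv
        have hv : (0 : ℝ) < v := hv
        exact (DifferentiableAt.differentiableWithinAt (by fun_prop (disch := exact hv.ne')))
      · rw [interior_Ioi] at hv
        have hv : (0 : ℝ) < v := hv
        have h := (((hasDerivAt_id v).add ((hasDerivAt_inv hv.ne'))).add (hasDerivAt_log hv.ne')).sub
          ((hasDerivAt_pow 2 v).div_const 2)
        simp only [one_div]
        rw [show (fun v : ℝ => v + v⁻¹ + log v - v ^ 2 / 2) = fun v => id v + v⁻¹ + log v - v ^ 2 / 2 from rfl]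
        refine (h.deriv).trans_le ?_
        have e : 1 + -(v ^ 2)⁻¹ + v⁻¹ - (2 : ℕ) * v ^ (2 - 1) / 2 = -((v - 1) ^ 2 * (v + 1)) / v ^ 2 := by
          field_simp
          ring
        rw [e]
        exact div_nonpos_of_nonpos_of_nonneg (by nlinarith [sq_nonneg (v - 1)]) (sq_nonneg _)
    have h2 := hanti (Set.mem_Ioi.2 h0) (Set.mem_Ioi.2 one_pos) h1.le
    simp only [log_one, one_pow, div_one] at h2
    simp only [objW, log_one, one_pow, div_one]
    have h3 : 0 ≤ w + 1 / w - 2 := by linarith [zOne_gt h0 h1]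
    linarith [mul_le_mul_of_nonneg_left hx h3]

theorem gSph_semi_le_one {x : ℝ} (h0 : 0 ≤ x) (h1 : x ≤ 1) : gSph semi 2 x = x ^ 2 / 4 := by
  rcases eq_or_lt_of_le h1 with rfl | h
  · rw [gSph_semi_high le_rfl]; norm_num
  · exact gSph_semi_low h0 h

/-- Increments are at most those of the quadratic. -/
theorem gSph_semi_incr {x y : ℝ} (hx : 0 ≤ x) (hxy : x ≤ y) :
    gSph semi 2 y - gSph semi 2 x ≤ y ^ 2 / 4 - x ^ 2 / 4 := by
  have high : ∀ a b : ℝ, 1 ≤ a → a ≤ b → gSph semi 2 b - gSph semi 2 a ≤ b ^ 2 / 4 - a ^ 2 / 4 := by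
    intro a b ha hab
    have hb : 0 < b := by linarith
    rw [gSph_semi_high ha, gSph_semi_high (ha.trans hab)]
    have ha0 : 0 < a := by linarith
    have h := le_log_one_add_of_nonneg (div_nonneg (sub_nonneg.2 hab) ha0.le)
    rw [show 1 + (b - a) / a = b / a by field_simp; ring, log_div hb.ne' ha0.ne',
      show (b - a) / a + 2 = (a + b) / a by field_simp; ring, mul_div_assoc',
      div_div_div_cancel_right₀ ha0.ne'] at h
    have e : b ^ 2 / 4 - a ^ 2 / 4 - (b - a - (b - a) / (a + b))
        = (b - a) * (a + b - 2) ^ 2 / (4 * (a + b)) := by field_simp; ring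
    have h2 : 0 ≤ (b - a) * (a + b - 2) ^ 2 / (4 * (a + b)) :=
      div_nonneg (mul_nonneg (sub_nonneg.2 hab) (sq_nonneg _)) (by linarith)
    have h3 : (b - a) / (a + b) = 2 * (b - a) / (a + b) / 2 := by ring
    linarith
  rcases le_total y 1 with hy | hy
  · rw [gSph_semi_le_one hx (hxy.trans hy), gSph_semi_le_one (hx.trans hxy) hy]
  rcases le_total x 1 with hx1 | hx1
  · have h := high 1 y le_rfl hy
    rw [gSph_semi_le_one zero_le_one le_rfl] at h
    rw [gSph_semi_le_one hx hx1]
    linarith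
  · exact high x y hx1 hxy

theorem comb_sq {k : ℕ} {q : ℕ → ℝ} (h0 : q 0 = 0) :
    comb k q (fun v => v ^ 2) = 1 - mass k * ∑ l ∈ Icc 1 k, q l ^ 2 := by
  set A : ℕ → ℝ := fun i => 2 * q i * vOf k q i + lev k (i + 1) * q i ^ 2 with hA
  have e : ∀ i ∈ range k, (vOf k q i ^ 2 - vOf k q (i + 1) ^ 2) / lev k (i + 1)
      = A (i + 1) - A i + mass k * q (i + 1) ^ 2 * (-1) := fun i hi => by
    have hl : lev k (i + 1 + 1) = lev k (i + 1) + mass k := by
      simp only [P157.Rsb.lev, P157.Rsb.mass]; push_cast; ring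
    rw [vOf_step (mem_range.1 hi)]
    simp only [hA]
    rw [hl, vOf_step (q := q) (mem_range.1 hi)]
    field_simp [(lev_pos' k i).ne']
    ring
  rw [comb, sum_congr rfl e, sum_add_distrib, sum_range_sub A, ← sum_mul, ← mul_sum]
  have hsum : ∑ i ∈ range k, q (i + 1) ^ 2 = ∑ l ∈ Icc 1 k, q l ^ 2 := by
    rw [range_eq_Ico, sum_Ico_add' (fun l => q l ^ 2) 0 k 1, zero_add]
    rfl
  have hk : lev k (k + 1) = 1 := by simp only [P157.Rsb.lev]; push_cast; field_simp
  simp only [hA, hsum, h0, vOf_top, hk]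
  ring

theorem semiStmt : SemiStmt := by
  refine ⟨inferInstance, isTopEdge_semi, semi_Iio, fun x h0 h1 a => cheb_transform h0 h1 a,
    fun t a => by
      have h := congrArg (Polynomial.eval t) (cheb_sq a).1
      rwa [eval_pow, eval_finsetSum] at h, fun β k q hβ hq => ?_⟩
  have e : comb k q (fun v => β ^ 2 / 4 * v ^ 2) = β ^ 2 / 4 * (1 - mass k * ∑ l ∈ Icc 1 k, q l ^ 2) := by
    rw [comb_const_mul, comb_sq hq.1]
  refine ⟨?_, fun hv => ?_⟩
  · rw [← e, eng]
    refine comb_mono hq (by simp [gSph]) fun x y hx hxy _ => ?_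
    have h := gSph_semi_incr (mul_nonneg hβ.le hx) (mul_le_mul_of_nonneg_left hxy hβ.le)
    linarith
  · rw [← e, eng]
    have hle : ∀ i ≤ k, gSph semi 2 (β * vOf k q i) = β ^ 2 / 4 * vOf k q i ^ 2 := fun i hi => by
      have hi0 : vOf k q i ≤ vOf k q 0 := by
        induction i with
        | zero => exact le_rfl
        | succ i ih => exact (vOf_anti hq hi).trans (ih (Nat.le_of_succ_le hi))
      rw [gSph_semi_le_one (mul_nonneg hβ.le (vOf_nonneg hq i))
        ((mul_le_mul_of_nonneg_left hi0 hβ.le).trans hv)]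
      ring
    simp only [comb]
    rw [hle k le_rfl]
    congr 1
    refine sum_congr rfl fun i hi => ?_
    have hi := mem_range.1 hi
    rw [hle i hi.le, hle (i + 1) hi]

end Vale.Agent.P146
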