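import Vale.Agent.P146.Proj.Var
import Vale.Agent.P146.SemiEng
import Vale.Agent.P146.Marg
import Vale.Agent.P146.MargRatio

/-!
# P146: assembly of the unboundedness of the variance

The test fields `∑ S_(2i) / (i + 1)` have Gibbs mean of the order of the harmonic sum and squared
norm of at most twice that sum, so the variance exceeds every multiple of the harmonic sum.
-/

open Real Filter Topology Finset

namespace Vale.Agent.P146

/-- The lower bound on the Gibbs means of the test fields. -/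
def GMeanStmt : Prop :=
  ∀ β : ℝ, 1 < β → ∀ x : ℝ, 0 < x → x < 1 → ∀ (A : ℕ) (ε : ℝ), 0 < ε → ∀ᶠ n in atTop,
    1 / 2 * ∑ i ∈ range (A + 1), x ^ (2 * i + 1) / (i + 1) - ε
      ≤ β / 2 * ∑ i ∈ range (A + 1), 1 / ((i : ℝ) + 1) * gMean β (cheb (2 * i)) n

theorem sum_even_range (g : ℕ → ℝ) (h : ∀ a, Odd a → g a = 0) :
    ∀ A, ∑ a ∈ range (2 * A + 1), g a = ∑ i ∈ range (A + 1), g (2 * i)
  | 0 => by simp
  | A + 1 => by
    rw [show 2 * (A + 1) + 1 = (2 * A + 1) + 1 + 1 by ring, sum_range_succ, sum_range_succ,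
      sum_range_succ _ (A + 1), sum_even_range g h A, h _ ⟨A, rfl⟩, add_zero]
    ring_nf

theorem unboundedStmt_of (hB : VarStmt) (hG : GMeanStmt) : UnboundedStmt := by
  intro β hβ
  refine tendsto_atTop.2 fun M => ?_
  have hβ0 : (0 : ℝ) < β := by linarith
  have hdiv := (tendsto_sum_range_one_div_nat_succ_atTop.comp (tendsto_add_atTop_nat 1)).eventually
    (eventually_ge_atTop (max 1 (320 * (M + β ^ 2 / 2))))
  obtain ⟨A, hA : max 1 (320 * (M + β ^ 2 / 2)) ≤ ∑ i ∈ range (A + 1), 1 / ((i : ℝ) + 1)⟩ := hdiv.exists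
  set H := ∑ i ∈ range (A + 1), 1 / ((i : ℝ) + 1) with hH
  have hH1 : 1 ≤ H := (le_max_left _ _).trans hA
  obtain ⟨x, hxS, hx0, hx1⟩ : ∃ x : ℝ, H / 2 < ∑ i ∈ range (A + 1), x ^ (2 * i + 1) / (i + 1)
      ∧ 0 < x ∧ x < 1 := by
    have hc : Continuous fun x : ℝ => ∑ i ∈ range (A + 1), x ^ (2 * i + 1) / ((i : ℝ) + 1) := by fun_prop
    have hlt : H / 2 < ∑ i ∈ range (A + 1), (1 : ℝ) ^ (2 * i + 1) / ((i : ℝ) + 1) := by
      simp only [one_pow, ← hH]; linarith
    have hev := (hc.continuousAt.eventually (Ioi_mem_nhds hlt)).filter_mono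
      (nhdsWithin_le_nhds (s := Set.Iio 1))
    exact ((hev.and ((Ioo_mem_nhdsLT (show (0 : ℝ) < 1 by norm_num)))).exists).imp
      fun x hx => ⟨hx.1, hx.2.1, hx.2.2⟩
  set c : ℕ → ℝ := fun a => if Even a then 1 / (((a / 2 : ℕ) : ℝ) + 1) else 0 with hc
  have hodd : ∀ a, Odd a → c a = 0 := fun a ha => by
    simp [hc, Nat.not_even_iff_odd.2 ha]
  have hev : ∀ i : ℕ, c (2 * i) = 1 / ((i : ℝ) + 1) := fun i => by simp [hc]
  have hnorm : ∑ a ∈ range (2 * A + 1), c a ^ 2 * ((a : ℝ) + 1) ≤ 2 * H := by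
    rw [sum_even_range _ (fun a ha => by simp [hodd a ha]), hH, mul_sum]
    refine sum_le_sum fun i _ => ?_
    have hi : (0 : ℝ) < (i : ℝ) + 1 := by positivity
    rw [hev, Nat.cast_mul, Nat.cast_ofNat, div_pow, one_pow, mul_one_div,
      div_mul_eq_mul_div, one_mul, div_le_div_iff₀ (by positivity) hi]
    nlinarith
  filter_upwards [hB β H (2 * A + 1) c hβ0 (by linarith), hG β hβ x hx0 hx1 A (H / 8) (by linarith)]
    with n hn hg
  rw [sum_even_range (fun a => c a * (β / 2 * gMean β (cheb a) n))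
    (fun a ha => by simp [hodd a ha])] at hn
  have e : ∑ i ∈ range (A + 1), c (2 * i) * (β / 2 * gMean β (cheb (2 * i)) n)
      = β / 2 * ∑ i ∈ range (A + 1), 1 / ((i : ℝ) + 1) * gMean β (cheb (2 * i)) n := by
    rw [mul_sum]; exact sum_congr rfl fun i _ => by rw [hev]; ring
  rw [e] at hn
  set T := β / 2 * ∑ i ∈ range (A + 1), 1 / ((i : ℝ) + 1) * gMean β (cheb (2 * i)) n
  have hv : 0 ≤ freeVar n β + β ^ 2 / 2 :=
    add_nonneg (ProbabilityTheory.variance_nonneg _ _) (by positivity)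
  have hT : (H / 8) ^ 2 ≤ T ^ 2 := pow_le_pow_left₀ (by linarith) (by linarith) 2
  have h5 : (freeVar n β + β ^ 2 / 2) * (2 * ∑ a ∈ range (2 * A + 1), c a ^ 2 * ((a : ℝ) + 1) + H)
      ≤ (freeVar n β + β ^ 2 / 2) * (5 * H) := mul_le_mul_of_nonneg_left (by linarith) hv
  have h6 : H / 320 ≤ freeVar n β + β ^ 2 / 2 := by
    refine le_of_mul_le_mul_right ?_ (show (0 : ℝ) < 5 * H by linarith)
    nlinarith
  linarith [le_max_right 1 (320 * (M + β ^ 2 / 2))]

end Vale.Agent.P146
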