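import Vale.Agent.P146.Goe.Mom
import Vale.Agent.P146.SemiEng
import Vale.Agent.P166.Rsb.Assemble

/-!
# P146: the Gibbs means of the test field at low temperature

The test field `field A = ∑ S_(2i) / (i + 1)` is a nonnegative combination of squares.  Moving the
spectrum down by `u` times it lowers the functional of a path with a marginal first tail variable,
so by convexity of the pressure its Gibbs mean is bounded below by half its Stieltjes transform.
-/

open MeasureTheory Real Filter Topology Finset Polynomial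
open Vale.Agent.P157.Rsb (IsPath vOf isPath_refine refinePath)
open Vale.Agent.P157.Cube2 (spinSup spinSup_refine_le)
open Vale.Agent.P166 (IsTopEdge pressQ avgQ pressQ_tangent avgQ_mul avgQ_sum avgQ_const abs_avgQ_le)
open Vale.Agent.P166.Rsb (eng eng_refine formulaValues variational upperStmt lowerStmt approxStmt)

namespace Vale.Agent.P146

/-- The test field. -/
noncomputable def field (A : ℕ) : Polynomial ℝ :=
  ∑ i ∈ range (A + 1), Polynomial.C (1 / ((i : ℝ) + 1)) * cheb (2 * i)

theorem field_eval (A : ℕ) (t : ℝ) :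
    (field A).eval t = ∑ i ∈ range (A + 1), 1 / ((i : ℝ) + 1) * (cheb (2 * i)).eval t := by
  simp [field, eval_finsetSum]

theorem field_nonneg (A : ℕ) (t : ℝ) : 0 ≤ (field A).eval t := by
  suffices h : 1 / ((A : ℝ) + 1) * (cheb A).eval t ^ 2 ≤ (field A).eval t from le_trans (by positivity) h
  induction A with
  | zero => simp [field_eval, cheb_zero]
  | succ A ih =>
    have hsq : ∀ a, (cheb a).eval t ^ 2 = ∑ i ∈ range (a + 1), (cheb (2 * i)).eval t := fun a =>
      semiStmt.2.2.2.2.1 t a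
    have e : (cheb (2 * (A + 1))).eval t = (cheb (A + 1)).eval t ^ 2 - (cheb A).eval t ^ 2 := by
      rw [hsq, hsq, sum_range_succ _ (A + 1)]; ring
    rw [field_eval, sum_range_succ, ← field_eval, e, mul_sub]
    have hc : 1 / (((A + 1 : ℕ) : ℝ) + 1) ≤ 1 / ((A : ℝ) + 1) :=
      one_div_le_one_div_of_le (by positivity) (by push_cast; linarith)
    linarith [mul_le_mul_of_nonneg_right hc (sq_nonneg ((cheb A).eval t))]

theorem field_transform {x : ℝ} (h0 : 0 < x) (h1 : x < 1) (A : ℕ) :
    ∫ t, (field A).eval t / (x + 1 / x - t) ∂semi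
      = ∑ i ∈ range (A + 1), x ^ (2 * i + 1) / ((i : ℝ) + 1) := by
  simp only [field_eval, sum_div, mul_div_assoc]
  rw [integral_finsetSum _ fun i _ =>
    (integrable_div_semi (cheb (2 * i)).continuous (zOne_gt h0 h1)).const_mul _]
  simp only [integral_const_mul, cheb_transform h0 h1]
  exact sum_congr rfl fun i _ => by ring

/-! ### the test field at the GOE matrix -/

theorem grow_quad {n : ℕ} (p : Polynomial ℝ) (x : Fin n → Bool) :
    Goe.Grow fun g => quad (aeval (goe n g) p) x := by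
  have e : ∀ g i j, (aeval (goe n g) p : Matrix (Fin n) (Fin n) ℝ) i j
      = ∑ r ∈ range (p.natDegree + 1), p.coeff r * (goe n g ^ r) i j := fun g i j => by
    rw [aeval_eq_sum_range, Matrix.sum_apply]
    rfl
  simp only [quad, e]
  exact Goe.grow_sum _ fun i _ => Goe.grow_sum _ fun j _ =>
    ((Goe.grow_sum _ fun r _ => (Goe.grow_pow r i j).const_mul _).const_mul _).mul (Goe.grow_const _)

theorem grow_abs {κ : Type*} [Fintype κ] {f : (κ → ℝ) → ℝ} (hf : Goe.Grow f) :
    Goe.Grow fun g => |f g| := by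
  obtain ⟨hm, C, q, hC, hb⟩ := hf
  exact ⟨hm.abs, C, q, hC, fun g => by rw [abs_abs]; exact hb g⟩

theorem abs_pressQ_le {n : ℕ} {β : ℝ} (hβ : 0 ≤ β) (h : (Fin n → Bool) → ℝ) :
    |pressQ β h| ≤ β / (2 * n) * ∑ s, |h s| := by
  have hle : ∀ s, |h s| ≤ ∑ s, |h s| := fun s =>
    single_le_sum (f := fun s => |h s|) (fun _ _ => abs_nonneg _) (mem_univ s)
  have hc : 0 ≤ β / (2 * (n : ℝ)) := by positivity
  have h0 : pressQ β (fun _ : Fin n → Bool => (0 : ℝ)) = 0 := by
    simp [P166.pressQ]
  have h1 := pressQ_tangent (β := β) h fun _ => 0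
  have h2 := pressQ_tangent (β := β) (fun _ => 0) h
  rw [h0] at h1 h2
  simp only [zero_sub, sub_zero] at h1 h2
  have b1 := abs_le.1 (abs_avgQ_le (β := β) (h := h) (f := fun s => -h s) fun s => by
    rw [abs_neg]; exact hle s)
  have b2 := abs_le.1 (abs_avgQ_le (β := β) (h := fun _ => 0) (f := h) hle)
  rw [abs_le]
  constructor <;> linarith [mul_le_mul_of_nonneg_left b1.1 hc, mul_le_mul_of_nonneg_left b1.2 hc,
    mul_le_mul_of_nonneg_left b2.1 hc, mul_le_mul_of_nonneg_left b2.2 hc]

variable {β : ℝ} {n : ℕ}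

theorem integrable_pressQ (hβ : 0 ≤ β) (f : Polynomial ℝ) :
    Integrable (fun A => pressQ β fun x => quad (aeval (goe n A) f) x) (arrLaw n) := by
  refine Integrable.mono' ((Goe.grow_sum (univ : Finset (Fin n → Bool)) fun s _ =>
    grow_abs (grow_quad f s)).integrable.const_mul (β / (2 * n))) ?_
    (ae_of_all _ fun A => (Real.norm_eq_abs _).trans_le (abs_pressQ_le hβ _))
  have hm : ∀ s : Fin n → Bool, Measurable fun A => quad (aeval (goe n A) f) s := fun s => (grow_quad f s).1
  unfold P166.pressQ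
  exact (((Finset.measurable_sum _ fun s _ => ((hm s).const_mul _).exp).const_mul _).log.div_const _).aestronglyMeasurable

theorem integrable_avgQ (p : Polynomial ℝ) :
    Integrable (fun A => avgQ β (fun x => quad (goe n A) x) fun x => quad (aeval (goe n A) p) x) (arrLaw n) := by
  refine Integrable.mono' (Goe.grow_sum (univ : Finset (Fin n → Bool)) fun s _ =>
    grow_abs (grow_quad p s)).integrable ?_ (ae_of_all _ fun A => (Real.norm_eq_abs _).trans_le
      (abs_avgQ_le fun s => single_le_sum (f := fun s => |quad (aeval (goe n A) p) s|)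
        (fun _ _ => abs_nonneg _) (mem_univ s)))
  have hm : ∀ (f : Polynomial ℝ) (s : Fin n → Bool), Measurable fun A => quad (aeval (goe n A) f) s :=
    fun f s => (grow_quad f s).1
  have hX : ∀ s : Fin n → Bool, Measurable fun A => quad (goe n A) s := fun s => by
    simpa using hm Polynomial.X s
  unfold P166.avgQ
  exact ((Finset.measurable_sum _ fun s _ => ((hX s).const_mul _).exp.mul (hm p s)).div
    (Finset.measurable_sum _ fun s _ => ((hX s).const_mul _).exp)).aestronglyMeasurable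

theorem quad_sub_smul (M P : Matrix (Fin n) (Fin n) ℝ) (u : ℝ) (x : Fin n → Bool) :
    quad (M - u • P) x = quad M x - u * quad P x := by
  simp only [quad, Matrix.sub_apply, Matrix.smul_apply, smul_eq_mul, mul_sum, ← sum_sub_distrib]
  exact sum_congr rfl fun i _ => sum_congr rfl fun j _ => by ring

/-- The pressure lies above its tangent. -/
theorem pressQ_sub_le (u : ℝ) (p : Polynomial ℝ) (A : Fin n × Fin n → ℝ) :
    pressQ β (fun x => quad (aeval (goe n A) (X : Polynomial ℝ)) x)
        - pressQ β (fun x => quad (aeval (goe n A) (X - Polynomial.C u * p)) x)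
      ≤ u * (β / 2 * (avgQ β (fun x => quad (goe n A) x) (fun x => quad (aeval (goe n A) p) x) / n)) := by
  have e : ∀ x, quad (aeval (goe n A) (X - Polynomial.C u * p)) x
      = quad (goe n A) x - u * quad (aeval (goe n A) p) x := fun x => by
    rw [← quad_sub_smul]
    simp [Algebra.smul_def]
  simp only [aeval_X, e]
  have h := pressQ_tangent (β := β) (fun x => quad (goe n A) x)
    fun x => quad (goe n A) x - u * quad (aeval (goe n A) p) x
  simp only [show ∀ x, quad (goe n A) x - u * quad (aeval (goe n A) p) x - quad (goe n A) x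
    = -u * quad (aeval (goe n A) p) x from fun x => by ring, avgQ_mul] at h
  refine le_trans (by linarith) (le_of_eq (show
    -(β / (2 * (n : ℝ)) * (-u * avgQ β (fun x => quad (goe n A) x) fun x => quad (aeval (goe n A) p) x))
      = u * (β / 2 * (avgQ β (fun x => quad (goe n A) x) (fun x => quad (aeval (goe n A) p) x) / n)) by ring))

/-- The mean pressure lies above its tangent. -/
theorem meanP_tangent (hβ : 0 ≤ β) (u : ℝ) (p : Polynomial ℝ) :
    meanP β X n - meanP β (X - Polynomial.C u * p) n ≤ u * (β / 2 * gMean β p n) := by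
  have i1 := integrable_pressQ (n := n) hβ X
  have i2 := integrable_pressQ (n := n) hβ (X - Polynomial.C u * p)
  have i3 := integrable_avgQ (β := β) (n := n) p
  show (∫ A, pressQ β (fun x => quad (aeval (goe n A) X) x) ∂arrLaw n)
      - (∫ A, pressQ β (fun x => quad (aeval (goe n A) (X - Polynomial.C u * p)) x) ∂arrLaw n)
    ≤ u * (β / 2 * ∫ A, avgQ β (fun x => quad (goe n A) x) (fun x => quad (aeval (goe n A) p) x) / n ∂arrLaw n)
  rw [← integral_sub i1 i2, ← integral_const_mul, ← integral_const_mul]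
  exact integral_mono (i1.sub i2) (((i3.div_const _).const_mul _).const_mul _) (pressQ_sub_le u p)

theorem gMean_field (A n : ℕ) :
    gMean β (field A) n = ∑ i ∈ range (A + 1), 1 / ((i : ℝ) + 1) * gMean β (cheb (2 * i)) n := by
  have hi : ∀ p : Polynomial ℝ, Integrable
      (fun g => avgQ β (fun x => quad (goe n g) x) (fun x => quad (aeval (goe n g) p) x) / n) (arrLaw n) :=
    fun p => (integrable_avgQ p).div_const _
  show ∫ g, avgQ β (fun x => quad (goe n g) x) (fun x => quad (aeval (goe n g) (field A)) x) / n ∂arrLaw n = _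
  have e : ∀ g, avgQ β (fun x => quad (goe n g) x) (fun x => quad (aeval (goe n g) (field A)) x) / (n : ℝ)
      = ∑ i ∈ range (A + 1), 1 / ((i : ℝ) + 1) * (avgQ β (fun x => quad (goe n g) x)
          (fun x => quad (aeval (goe n g) (cheb (2 * i))) x) / n) := fun g => by
    have e2 : ∀ x, quad (aeval (goe n g) (field A)) x
        = ∑ i ∈ range (A + 1), 1 / ((i : ℝ) + 1) * quad (aeval (goe n g) (cheb (2 * i))) x := fun x => by
      simp only [field, map_sum, map_mul, aeval_C, ← Algebra.smul_def, quad, Matrix.sum_apply,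
        Matrix.smul_apply, smul_eq_mul, mul_sum, sum_mul]
      simp_rw [Finset.sum_comm (s := (univ : Finset (Fin n))) (t := range (A + 1))]
      exact sum_congr rfl fun r _ => sum_congr rfl fun i _ => sum_congr rfl fun j _ => by ring
    simp only [e2, avgQ_sum, avgQ_mul, sum_div, mul_div_assoc]
  simp only [e]
  rw [integral_finsetSum _ fun i _ => (hi _).const_mul _]
  simp only [integral_const_mul]
  rfl

/-- The clamp to the support. -/
noncomputable def clamp (t : ℝ) : ℝ := max (-2) (min 2 t)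

theorem clamp_mem (t : ℝ) : clamp t ∈ Set.Icc (-2 : ℝ) 2 :=
  ⟨le_max_left _ _, max_le (by norm_num) (min_le_left _ _)⟩

theorem clamp_eq {t : ℝ} (ht : t ∈ Set.Icc (-2 : ℝ) 2) : clamp t = t := by
  rw [clamp, min_eq_right ht.2, max_eq_right ht.1]

theorem abs_clamp_sub (s t : ℝ) : |clamp s - clamp t| ≤ |s - t| := by
  unfold clamp
  refine (abs_max_sub_max_le_max _ _ _ _).trans (max_le (by simp) ?_)
  exact (abs_min_sub_min_le_max _ _ _ _).trans (max_le (by simp) le_rfl)

/-- The variational values of the spectrum and of its downward move by `u` times the test field. -/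
theorem exists_gap {β : ℝ} (hβ0 : 0 < β)
    (hD : ∀ δ : ℝ, 0 < δ → ∃ k₀ : ℕ, ∀ k : ℕ, k₀ ≤ k → ∀ q : ℕ → ℝ, IsPath k q →
      ∃ q', IsPath k q' ∧ valueSemi β k q' ≤ valueSemi β k q ∧ 1 - δ ≤ β * vOf k q' 0) {x : ℝ} (hx0 : 0 < x) (hx1 : x < 1) (A : ℕ)
    {ε : ℝ} (hε : 0 < ε) :
    ∃ u b l0 lu : ℝ, 0 < u ∧
      u * (1 / 2 * (∑ i ∈ range (A + 1), x ^ (2 * i + 1) / ((i : ℝ) + 1)) - ε) ≤ l0 - lu ∧
      IsTopEdge (semi.map (X : Polynomial ℝ).eval) 2 ∧
      (∀ lam, P166.Admissible (semi.map (X : Polynomial ℝ).eval) 2 lam →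
        ∀ m : ∀ N, Measure (Fin N → Fin N → ℝ), (∀ N, P166.IsHaarOrth (m N)) →
          Tendsto (fun N => ∫ U, P166.press β (lam N) U ∂m N) atTop (𝓝 l0) ∧
          Tendsto (fun N => ∫⁻ U, ENNReal.ofReal |P166.press β (lam N) U - l0| ∂m N) atTop (𝓝 0)) ∧
      IsTopEdge (semi.map (X - Polynomial.C u * field A).eval) b ∧
      (∀ t ∈ Set.Icc (-2 : ℝ) 2, (X - Polynomial.C u * field A).eval t ≤ b) ∧
      ∀ lam, P166.Admissible (semi.map (X - Polynomial.C u * field A).eval) b lam →
        ∀ m : ∀ N, Measure (Fin N → Fin N → ℝ), (∀ N, P166.IsHaarOrth (m N)) →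
          Tendsto (fun N => ∫ U, P166.press β (lam N) U ∂m N) atTop (𝓝 lu) ∧
          Tendsto (fun N => ∫⁻ U, ENNReal.ofReal |P166.press β (lam N) U - lu| ∂m N) atTop (𝓝 0) := by
  set p := field A with hp
  set T : ℝ := ∑ i ∈ range (A + 1), x ^ (2 * i + 1) / ((i : ℝ) + 1) with hT
  set z := x + 1 / x with hzd
  have hz : 2 < z := zOne_gt hx0 hx1
  set f : ℝ → ℝ := fun t => p.eval (clamp t) with hfd
  have hfc : Continuous f := p.continuous.comp (by unfold clamp; fun_prop)
  have hf0 : ∀ t, 0 ≤ f t := fun t => field_nonneg A _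
  obtain ⟨B0, hB0⟩ := isCompact_Icc.exists_bound_of_continuousOn (s := Set.Icc (-2 : ℝ) 2) p.continuous.continuousOn
  have hfB : ∀ t, f t ≤ B0 := fun t => (le_abs_self _).trans (hB0 _ (clamp_mem t))
  obtain ⟨L, hL⟩ := isCompact_Icc.exists_bound_of_continuousOn (s := Set.Icc (-2 : ℝ) 2)
    (derivative p).continuous.continuousOn
  have hfL : ∀ s t, |f s - f t| ≤ |L| * |s - t| := fun s t => by
    refine (show |f s - f t| ≤ |L| * |clamp s - clamp t| from ?_).trans
      (mul_le_mul_of_nonneg_left (abs_clamp_sub s t) (abs_nonneg L))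
    exact (convex_Icc (-2 : ℝ) 2).norm_image_sub_le_of_norm_hasDerivWithin_le
      (f := fun t => p.eval t) (f' := fun t => (derivative p).eval t)
      (fun v _ => (p.hasDerivAt v).hasDerivWithinAt) (fun v hv => (hL v hv).trans (le_abs_self L))
      (clamp_mem t) (clamp_mem s)
  set C := B0 ^ 2 / (z - 2) ^ 2 with hC
  set u := min (1 / (2 * (|L| + 1))) (ε / (C + 1)) with hud
  have hu : 0 < u := lt_min (by positivity) (by positivity)
  have huL : u * |L| ≤ 1 / 2 :=
    (mul_le_mul_of_nonneg_right (min_le_left _ _) (abs_nonneg L)).trans (by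
      rw [div_mul_eq_mul_div, div_le_iff₀ (by positivity)]; linarith)
  have huC : u * C ≤ ε :=
    (mul_le_mul_of_nonneg_right (min_le_right _ _) (by positivity)).trans (by
      rw [div_mul_eq_mul_div, div_le_iff₀ (by positivity)]; linarith [hε.le])
  set φ : ℝ → ℝ := fun t => t - u * f t with hφ
  have hφc : Continuous φ := continuous_id.sub (hfc.const_smul u)
  have hφs : StrictMono φ := fun s t hst => by
    have h2 : u * (f t - f s) ≤ (t - s) / 2 := by
      refine (mul_le_mul_of_nonneg_left ((le_abs_self _).trans (hfL t s)) hu.le).trans ?_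
      rw [← mul_assoc, abs_of_pos (sub_pos.2 hst)]
      linarith [mul_le_mul_of_nonneg_right huL (sub_pos.2 hst).le]
    simp only [hφ]
    linarith
  set g : Polynomial ℝ := X - Polynomial.C u * p with hg
  have hge : ∀ t ∈ Set.Icc (-2 : ℝ) 2, g.eval t = φ t := fun t ht => by
    simp [hg, hφ, hfd, clamp_eq ht]
  have hmap : semi.map g.eval = semi.map φ := Measure.map_congr (ae_semi.mono hge)
  have hbφ : IsTopEdge (semi.map φ) (φ 2) := isTopEdge_map isTopEdge_semi hφc hφs
  have hloφ : ∃ lo, semi.map φ (Set.Iio lo) = 0 := ⟨φ (-2), by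
    rw [Measure.map_apply hφc.measurable measurableSet_Iio]
    exact measure_mono_null (fun t (ht : φ t < φ (-2)) => hφs.lt_iff_lt.1 ht) semi_Iio⟩
  have : IsProbabilityMeasure (semi.map φ) := Measure.isProbabilityMeasure_map hφc.measurable.aemeasurable
  obtain ⟨l0, hl0, ht0⟩ := variational upperStmt lowerStmt approxStmt isTopEdge_semi ⟨-2, semi_Iio⟩ hβ0
  obtain ⟨lu, hlu, htu⟩ := variational upperStmt lowerStmt approxStmt hbφ hloφ hβ0
  have eX : semi.map (X : Polynomial ℝ).eval = semi := by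
    rw [show (fun t : ℝ => (X : Polynomial ℝ).eval t) = id from funext fun t => eval_X, Measure.map_id]
  set η := u * ε / 2 with hη
  have hη0 : 0 < η := by positivity
  obtain ⟨_, ⟨k, q, hq, rfl⟩, -, hqv⟩ := hl0.exists_between (show l0 < l0 + η by linarith)
  obtain ⟨k₀, hk₀⟩ := hD (1 - x) (by linarith)
  have hk : ((k₀ + 1) * (k + 1) - 1) + 1 = (k₀ + 1) * (k + 1) :=
    Nat.sub_add_cancel (Nat.mul_pos (Nat.succ_pos k₀) (Nat.succ_pos k))
  have hkk : k₀ ≤ (k₀ + 1) * (k + 1) - 1 := by
    have := Nat.le_mul_of_pos_right (k₀ + 1) (show 0 < k + 1 by omega)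
    omega
  obtain ⟨q', hq', hval, hv⟩ := hk₀ _ hkk _ (isPath_refine hk hq)
  have hval' : valueSemi β ((k₀ + 1) * (k + 1) - 1) q' ≤ l0 + η := by
    refine hval.trans ?_
    simp only [valueSemi]
    rw [eng_refine hk]
    linarith [spinSup_refine_le P157.Cube2.spin hk hq]
  have hst : ∫ t, 1 / (z - t) ∂semi = x := stieltjes_semi hx0 hx1
  have hdrop := eng_drop (k := (k₀ + 1) * (k + 1) - 1) (z := z) isTopEdge_semi semi_Iio hfc hf0 hfB hu.le
    (fun t ht => hφs.monotone ht) hz (by rw [hst]; exact hx0) hβ0.le hq' (by rw [hst]; linarith)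
  have hTf : ∫ t, f t / (z - t) ∂semi = T := by
    rw [hT, ← field_transform hx0 hx1 A]
    exact integral_congr_ae (ae_semi.mono fun t ht => by simp only [hfd, clamp_eq ht]; rfl)
  rw [hTf] at hdrop
  have hlu_le : lu ≤ spinSup _ q' + eng (semi.map φ) (φ 2) β _ q' := hlu.1 ⟨_, q', hq', rfl⟩
  have hgapl : u / 2 * T - u ^ 2 * B0 ^ 2 / (2 * (z - 2) ^ 2) - η ≤ l0 - lu := by
    simp only [valueSemi] at hval'
    simp only [hφ] at hlu_le ⊢
    linarith
  have hCu : u ^ 2 * B0 ^ 2 / (2 * (z - 2) ^ 2) = u * (u * C / 2) := by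
    have : z - 2 ≠ 0 := (sub_pos.2 hz).ne'
    rw [hC]; field_simp
  refine ⟨u, φ 2, l0, lu, hu, ?_, by rw [eX]; exact isTopEdge_semi, fun lam hlam => ht0 lam (by rwa [eX] at hlam),
    by rw [hmap]; exact hbφ, fun t ht => (hge t ht).trans_le (hφs.monotone ht.2),
    fun lam hlam => htu lam (by rwa [hmap] at hlam)⟩
  have : u * (u * C / 2) ≤ u * (ε / 2) := mul_le_mul_of_nonneg_left (by linarith) hu.le
  linarith

/-- The Gibbs means of the test field at low temperature. -/
theorem gMean_ge (hA : SpectralStmt) (hD : MargStmt) :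
    ∀ β : ℝ, 1 < β → ∀ x : ℝ, 0 < x → x < 1 → ∀ (A : ℕ) (ε : ℝ), 0 < ε → ∀ᶠ n in atTop,
      1 / 2 * ∑ i ∈ range (A + 1), x ^ (2 * i + 1) / ((i : ℝ) + 1) - ε
        ≤ β / 2 * ∑ i ∈ range (A + 1), 1 / ((i : ℝ) + 1) * gMean β (cheb (2 * i)) n := by
  intro β hβ x hx0 hx1 A ε hε
  have hβ0 : 0 < β := by linarith
  simp only [← gMean_field]
  obtain ⟨u, b, l0, lu, hu, hgap, he0, h0, heu, hbu, hlu⟩ := exists_gap hβ0 (hD β hβ) hx0 hx1 A (half_pos hε)
  have hlim0 : Tendsto (meanP β X) atTop (𝓝 l0) :=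
    hA β X 2 l0 hβ0 he0 (fun t ht => by simpa using ht.2) fun lam hlam m hm => (h0 lam hlam m hm).1
  have hlimu : Tendsto (meanP β (X - Polynomial.C u * field A)) atTop (𝓝 lu) :=
    hA β _ b lu hβ0 heu hbu fun lam hlam m hm => (hlu lam hlam m hm).1
  set η := u * ε / 4 with hη
  have hη0 : 0 < η := by positivity
  filter_upwards [Metric.tendsto_nhds.1 hlim0 η hη0, Metric.tendsto_nhds.1 hlimu η hη0] with n hn0 hn1
  rw [Real.dist_eq, abs_lt] at hn0 hn1
  have ht := meanP_tangent (n := n) hβ0.le u (field A)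
  refine le_of_mul_le_mul_left ?_ hu
  linarith

end Vale.Agent.P146
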