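import Vale.Agent.P150.Defs

/-!
# P146: the free energy of the Sherrington-Kirkpatrick model
-/

open MeasureTheory ProbabilityTheory

namespace Vale.Agent.P146

/-- `F_n(β) = log ∑_x exp (β H_n(x))`, `H_n` the energy `n^{-1/2} ∑_{i<j} g_{ij} x_i x_j`. -/
noncomputable def freeEnergy (n : ℕ) (β : ℝ) (g : P150.Edge n → ℝ) : ℝ :=
  Real.log (∑ x : Fin n → Bool, Real.exp (β * P150.energy n g x))

/-- The variance of the free energy over the Gaussian couplings. -/
noncomputable def freeVar (n : ℕ) (β : ℝ) : ℝ :=
  variance (freeEnergy n β) (P150.disorder n)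

end Vale.Agent.P146
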