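import Vale.Agent.P146.MargTilt

/-!
# P146: the one-variable marginality inequality

An odd monotone `u` with decreasing ratio `u y / y`, normalised by `E u² = 1` in the law tilted
by `exp (lam F)`, has slope second moment at least `1 + 3/2 (1 - E y u)` when `E y u ≤ 1`.
The odd Hermite gap is applied to `(u - b y) exp (lam F / 2)`.
-/

open MeasureTheory ProbabilityTheory Real Filter

namespace Vale.Agent.P146

private theorem quad_nonneg {a b c x : ℝ} (ha : 0 < a) (h : b ^ 2 ≤ 4 * a * c) :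
    0 ≤ a * x ^ 2 - b * x + c := by
  nlinarith [sq_nonneg (2 * a * x - b)]

/-- The gap at `A = t S`, as a function of `W`. -/
private noncomputable def endGap (l t W b : ℝ) : ℝ :=
  1 / 2 + 3 / 2 * W - l * t * W / 3 - b * (4 * W + 3 / 2 * l - l * t * (1 + l * W) / 2)
    + b ^ 2 * (1 + l * W) * (2 - l ^ 2 * t / 4)

private theorem endGap_nonneg {l W b t : ℝ} (hl : 0 ≤ l) (hl1 : l ≤ 1) (hW : 0 ≤ W) (hW1 : W ≤ 1)
    (ht : t = 1 ∨ t = 3) : 0 ≤ endGap l t W b := by
  have e : endGap l t W b = (1 - W) * endGap l t 0 b + W * endGap l t 1 b := by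
    unfold endGap; ring
  have h0 : 0 ≤ endGap l t 0 b := by
    rcases ht with rfl | rfl
    · have := quad_nonneg (a := 2 - l ^ 2 / 4) (b := l) (c := 1 / 2) (x := b)
        (by nlinarith) (by nlinarith)
      unfold endGap; linarith
    · have := quad_nonneg (a := 2 - 3 * l ^ 2 / 4) (b := 0) (c := 1 / 2) (x := b)
        (by nlinarith) (by nlinarith)
      unfold endGap; linarith
  have h1 : 0 ≤ endGap l t 1 b := by
    rcases ht with rfl | rfl
    · have := quad_nonneg (a := (1 + l) * (2 - l ^ 2 / 4)) (b := 4 + l - l ^ 2 / 2)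
        (c := 2 - l / 3) (x := b) (by nlinarith)
        (by nlinarith [mul_nonneg hl (sub_nonneg.2 hl1),
          mul_nonneg (mul_nonneg hl hl) (sub_nonneg.2 hl1), pow_nonneg hl 4, pow_nonneg hl 3])
      unfold endGap; nlinarith
    · have := quad_nonneg (a := (1 + l) * (2 - 3 * l ^ 2 / 4)) (b := 4 - 3 / 2 * l ^ 2)
        (c := 2 - l) (x := b) (by nlinarith)
        (by nlinarith [mul_nonneg hl (sub_nonneg.2 hl1),
          mul_nonneg (mul_nonneg hl hl) (sub_nonneg.2 hl1), pow_nonneg hl 4, pow_nonneg hl 3])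
      unfold endGap; nlinarith
  rw [e]
  exact add_nonneg (mul_nonneg (by linarith) h0) (mul_nonneg hW h1)

private theorem endgame {l W S A B D g b : ℝ} (hl : 0 ≤ l) (hlW : l ≤ W) (hW1 : W ≤ 1)
    (hS : S = 1 + l * W) (hA : S ≤ A) (hA3 : A ≤ 3 * S) (hB : B * S ≤ A * W) (hD : 0 ≤ D)
    (h : 3 - 4 * b * W + 2 * b ^ 2 * S ≤ g + 2 * b * l + l * B / 3 - l ^ 2 * D / 12
      - b * l * (A + 1) / 2 + l ^ 2 * b ^ 2 * A / 4) :
    3 / 2 * (1 - W) ≤ g - 1 := by
  have hS0 : 0 < S := by rw [hS]; nlinarith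
  obtain ⟨t, rfl⟩ : ∃ t, A = t * S := ⟨A / S, by field_simp⟩
  have ht1 : 1 ≤ t := le_of_mul_le_mul_right (by linarith) hS0
  have ht3 : t ≤ 3 := le_of_mul_le_mul_right hA3 hS0
  have hBt : B ≤ t * W := le_of_mul_le_mul_right (by linarith) hS0
  have e : endGap l t W b = (3 - t) / 2 * endGap l 1 W b + (t - 1) / 2 * endGap l 3 W b := by
    unfold endGap; ring
  have h0 : 0 ≤ endGap l t W b := by
    rw [e]
    exact add_nonneg
      (mul_nonneg (by linarith) (endGap_nonneg hl (hlW.trans hW1) (hl.trans hlW) hW1 (Or.inl rfl)))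
      (mul_nonneg (by linarith) (endGap_nonneg hl (hlW.trans hW1) (hl.trans hlW) hW1 (Or.inr rfl)))
  unfold endGap at h0
  subst hS
  have h1 := mul_le_mul_of_nonneg_left hBt hl
  have h2 := mul_nonneg (sq_nonneg l) hD
  nlinarith

private theorem kern1 {a b p q : ℝ} (ha : 0 ≤ a) (hb : 0 ≤ b) (hp : 0 ≤ p) (hq : 0 ≤ q)
    (hmono : a ≤ b → p ≤ q) (hrat : a ≤ b → a * q ≤ b * p) (hmono' : b ≤ a → q ≤ p)
    (hrat' : b ≤ a → b * p ≤ a * q) :
    0 ≤ (a ^ 2 - b ^ 2) * (p ^ 2 - q ^ 2) ∧ (a ^ 2 - b ^ 2) * (p * b - q * a) ≤ 0 ∧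
      (p ^ 2 - q ^ 2) * (p * b - q * a) ≤ 0 := by
  rcases le_total a b with h | h
  · have h1 : a ^ 2 ≤ b ^ 2 := pow_le_pow_left₀ ha h 2
    have h2 : p ^ 2 ≤ q ^ 2 := pow_le_pow_left₀ hp (hmono h) 2
    have h3 := hrat h
    exact ⟨mul_nonneg_of_nonpos_of_nonpos (by linarith) (by linarith),
      mul_nonpos_of_nonpos_of_nonneg (by linarith) (by linarith),
      mul_nonpos_of_nonpos_of_nonneg (by linarith) (by linarith)⟩
  · have h1 : b ^ 2 ≤ a ^ 2 := pow_le_pow_left₀ hb h 2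
    have h2 : q ^ 2 ≤ p ^ 2 := pow_le_pow_left₀ hq (hmono' h) 2
    have h3 := hrat' h
    exact ⟨mul_nonneg (by linarith) (by linarith),
      mul_nonpos_of_nonneg_of_nonpos (by linarith) (by linarith),
      mul_nonpos_of_nonneg_of_nonpos (by linarith) (by linarith)⟩

/-- The odd Hermite gap applied to `(u - b y) exp (lam F / 2)`. -/
private theorem hermite_step {u n F : ℝ → ℝ} {lam C : ℝ} (P : Pot1 u F C)
    (hu : ∀ y, HasDerivAt u (n y) y) (gu : ExpGrow u) (gn : ExpGrow n)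
    (hodd : ∀ y, u (-y) = -u y) :
    ∃ b : ℝ, 3 * gTilt lam F (fun y => (u y - b * y) ^ 2) ≤
      gTilt lam F fun y => (n y - b + lam / 2 * (u y ^ 2 - b * (y * u y))) ^ 2 := by
  have hF := P.hF
  have gy : ExpGrow fun y => y := .id
  have hFc : Continuous F := continuous_iff_continuousAt.2 fun y => (hF y).continuousAt
  obtain ⟨J1, hJ1⟩ : ∃ J, J = ∫ y, y * u y * (exp (lam / 2 * F y) * gk y) := ⟨_, rfl⟩
  obtain ⟨J2, hJ2⟩ : ∃ J, J = ∫ y, y ^ 2 * (exp (lam / 2 * F y) * gk y) := ⟨_, rfl⟩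
  have hJ : 0 < J2 := by
    rw [hJ2]
    refine (integral_pos_iff_support_of_nonneg (fun y => ?_) (tilt_integrable P _ (gy.pow 2))).2 ?_
    · have := gk_pos y; positivity
    · refine IsOpen.measure_pos _ ?_ ⟨1, ?_⟩
      · exact isOpen_ne.preimage
          ((continuous_id.pow 2).mul (((hFc.const_mul _).rexp).mul continuous_gk))
      · have := gk_pos 1; simp only [Function.mem_support]; positivity
  obtain ⟨b, hb⟩ : ∃ b, b = J1 / J2 := ⟨_, rfl⟩
  refine ⟨b, ?_⟩
  obtain ⟨q, hq⟩ : ∃ q : ℝ → ℝ, q = fun y => u y - b * y := ⟨_, rfl⟩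
  obtain ⟨q', hq'⟩ : ∃ q' : ℝ → ℝ,
      q' = fun y => n y - b + lam / 2 * (u y ^ 2 - b * (y * u y)) := ⟨_, rfl⟩
  have gq : ExpGrow q := by rw [hq]; exact gu.sub ((ExpGrow.const b).mul gy)
  have gq' : ExpGrow q' := by
    rw [hq']
    exact (gn.sub (.const b)).add
      ((ExpGrow.const _).mul ((gu.pow 2).sub ((ExpGrow.const b).mul (gy.mul gu))))
  have ge := P.exp_grow (lam / 2)
  have hd : ∀ y, HasDerivAt (fun y => q y * exp (lam / 2 * F y))
      (q' y * exp (lam / 2 * F y)) y := fun y => by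
    rw [hq, hq']
    exact (((hu y).sub ((hasDerivAt_id y).const_mul b)).mul
      ((hF y).const_mul (lam / 2)).exp).congr_deriv (by simp; ring)
  have hFe : ∀ y, F (-y) = F y := fun y => by
    have hd0 : ∀ x, HasDerivAt (fun x => F (-x) - F x) 0 x := fun x =>
      (((hF (-x)).comp x (hasDerivAt_neg x)).sub (hF x)).congr_deriv (by rw [hodd]; ring)
    have h := is_const_of_deriv_eq_zero (fun x => (hd0 x).differentiableAt)
      (fun x => (hd0 x).deriv) y 0
    simp only [neg_zero, sub_self] at h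
    linarith
  have hz : ∫ y, y * (q y * exp (lam / 2 * F y)) * gk y = 0 := by
    have e : (fun y => y * (q y * exp (lam / 2 * F y)) * gk y) = fun y =>
        y * u y * (exp (lam / 2 * F y) * gk y) - b * (y ^ 2 * (exp (lam / 2 * F y) * gk y)) := by
      funext y; rw [hq]; ring
    rw [e, integral_sub (tilt_integrable P _ (gy.mul gu))
      ((tilt_integrable P _ (gy.pow 2)).const_mul b), integral_const_mul, ← hJ1, ← hJ2, hb,
      div_mul_cancel₀ _ hJ.ne', sub_self]
  have hi1 : Integrable fun y => y * (q y * exp (lam / 2 * F y)) * gk y :=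
    (gy.mul (gq.mul ge)).integrable
  have hi2 : Integrable fun y => q' y * exp (lam / 2 * F y) * gk y := (gq'.mul ge).integrable
  have hz' : ∫ y, q' y * exp (lam / 2 * F y) * gk y = 0 := by
    have h := integral_eq_zero_of_hasDerivAt_of_integrable
      (f := fun y => q y * exp (lam / 2 * F y) * gk y)
      (f' := fun y => q' y * exp (lam / 2 * F y) * gk y - y * (q y * exp (lam / 2 * F y)) * gk y)
      (fun y => ((hd y).mul (hasDerivAt_gk y)).congr_deriv (by ring))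
      (hi2.sub hi1) (gq.mul ge).integrable
    rwa [integral_sub hi2 hi1, hz, sub_zero] at h
  have hsq : ∀ f : ℝ → ℝ, (fun y => (f y * exp (lam / 2 * F y)) ^ 2 * gk y) =
      fun y => f y ^ 2 * (exp (lam * F y) * gk y) := fun f => funext fun y => by
    rw [mul_pow, ← exp_nat_mul, mul_assoc]; ring_nf
  have H := hermite_three hd (fun y => by rw [hq]; simp only [hodd, hFe]; ring)
    (by rw [hsq]; exact tilt_integrable P _ (gq.pow 2))
    (by rw [hsq]; exact tilt_integrable P _ (gq'.pow 2)) hi1 hi2 hz hz'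
  rw [hsq, hsq] at H
  simp only [hq, hq'] at H
  rw [gTilt_eq, gTilt_eq, mul_div_assoc']
  exact div_le_div_of_nonneg_right H (tiltL_one_pos P lam).le

private theorem expand_q {u F : ℝ → ℝ} {lam C : ℝ} (P : Pot1 u F C) (gu : ExpGrow u) (b : ℝ) :
    gTilt lam F (fun y => (u y - b * y) ^ 2) = gTilt lam F (fun y => u y ^ 2)
      - 2 * b * gTilt lam F (fun y => y * u y) + b ^ 2 * gTilt lam F fun y => y ^ 2 := by
  have gy : ExpGrow fun y => y := .id
  have h1 := (ExpGrow.const (-(2 * b))).mul (gy.mul gu)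
  have h2 := (ExpGrow.const (b ^ 2)).mul (gy.pow 2)
  rw [gTilt_congr (g := fun y => u y ^ 2 + -(2 * b) * (y * u y) + b ^ 2 * y ^ 2) fun y => by ring,
    gTilt_add P ((gu.pow 2).add h1) h2, gTilt_add P (gu.pow 2) h1, gTilt_mul, gTilt_mul]
  ring

private theorem expand_q' {u n F : ℝ → ℝ} {lam C : ℝ} (P : Pot1 u F C) (gu : ExpGrow u)
    (gn : ExpGrow n) (b : ℝ) :
    gTilt lam F (fun y => (n y - b + lam / 2 * (u y ^ 2 - b * (y * u y))) ^ 2) =
      gTilt lam F (fun y => n y ^ 2) - 2 * b * gTilt lam F n + b ^ 2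
      + lam * gTilt lam F (fun y => n y * u y ^ 2)
      - lam * b * gTilt lam F (fun y => n y * u y * y)
      - lam * b * gTilt lam F (fun y => u y ^ 2)
      + lam * b ^ 2 * gTilt lam F (fun y => y * u y)
      + lam ^ 2 / 4 * gTilt lam F (fun y => u y ^ 4)
      - lam ^ 2 * b / 2 * gTilt lam F (fun y => y * u y ^ 3)
      + lam ^ 2 * b ^ 2 / 4 * gTilt lam F fun y => y ^ 2 * u y ^ 2 := by
  have gy : ExpGrow fun y => y := .id
  have a1 := gn.pow 2
  have a2 := (ExpGrow.const (-(2 * b))).mul gn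
  have a3 := ExpGrow.const (b ^ 2)
  have a4 := (ExpGrow.const lam).mul (gn.mul (gu.pow 2))
  have a5 := (ExpGrow.const (-(lam * b))).mul ((gn.mul gu).mul gy)
  have a6 := (ExpGrow.const (-(lam * b))).mul (gu.pow 2)
  have a7 := (ExpGrow.const (lam * b ^ 2)).mul (gy.mul gu)
  have a8 := (ExpGrow.const (lam ^ 2 / 4)).mul (gu.pow 4)
  have a9 := (ExpGrow.const (-(lam ^ 2 * b / 2))).mul (gy.mul (gu.pow 3))
  have a10 := (ExpGrow.const (lam ^ 2 * b ^ 2 / 4)).mul ((gy.pow 2).mul (gu.pow 2))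
  have s2 := a1.add a2
  have s3 := s2.add a3
  have s4 := s3.add a4
  have s5 := s4.add a5
  have s6 := s5.add a6
  have s7 := s6.add a7
  have s8 := s7.add a8
  have s9 := s8.add a9
  rw [gTilt_congr (g := fun y => n y ^ 2 + -(2 * b) * n y + b ^ 2 + lam * (n y * u y ^ 2)
      + -(lam * b) * (n y * u y * y) + -(lam * b) * u y ^ 2 + lam * b ^ 2 * (y * u y)
      + lam ^ 2 / 4 * u y ^ 4 + -(lam ^ 2 * b / 2) * (y * u y ^ 3)
      + lam ^ 2 * b ^ 2 / 4 * (y ^ 2 * u y ^ 2)) fun y => by ring,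
    gTilt_add P s9 a10, gTilt_add P s8 a9, gTilt_add P s7 a8, gTilt_add P s6 a7,
    gTilt_add P s5 a6, gTilt_add P s4 a5, gTilt_add P s3 a4, gTilt_add P s2 a3, gTilt_add P a1 a2]
  have hc : gTilt lam F (fun _ => b ^ 2) = b ^ 2 := by
    simpa [gTilt_one P] using gTilt_mul (lam := lam) (F := F) (b ^ 2) fun _ => 1
  simp only [gTilt_mul, hc]
  ring

/-- Gaussian integration by parts. -/
private theorem parts_ids {u n F : ℝ → ℝ} {lam C : ℝ} (P : Pot1 u F C)
    (hu : ∀ y, HasDerivAt u (n y) y) (gu : ExpGrow u) (gn : ExpGrow n)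
    (hnorm : gTilt lam F (fun y => u y ^ 2) = 1)
    {W : ℝ} (hW : W = gTilt lam F (fun y => y * u y))
    {S : ℝ} (hS : S = gTilt lam F (fun y => y ^ 2))
    {X : ℝ} (hX : X = gTilt lam F (fun y => y ^ 4))
    {A : ℝ} (hA : A = gTilt lam F (fun y => y ^ 2 * u y ^ 2))
    {B : ℝ} (hB : B = gTilt lam F (fun y => y * u y ^ 3))
    {D : ℝ} (hD : D = gTilt lam F (fun y => u y ^ 4))
    {V : ℝ} (hV : V = gTilt lam F (fun y => y ^ 3 * u y))
    {N1 : ℝ} (hN1 : N1 = gTilt lam F n)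
    {N2 : ℝ} (hN2 : N2 = gTilt lam F (fun y => n y * u y ^ 2))
    {N3 : ℝ} (hN3 : N3 = gTilt lam F (fun y => n y * u y * y))
    : N1 = W - lam ∧ 3 * N2 = B - lam * D ∧ 1 + 2 * N3 = A - lam * B ∧ S = 1 + lam * W ∧
      X = 3 * S + lam * V := by
  have huc := gu.1
  have gy : ExpGrow fun y => y := .id
  have i1 : N1 = W - lam := by
    have := gTilt_ibp (lam := lam) P hu gu gn huc
    rw [gTilt_congr (f := fun y => u y * u y) (g := fun y => u y ^ 2) fun y => by ring, hnorm] at this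
    rw [hN1, hW]; linarith
  have i2 : 3 * N2 = B - lam * D := by
    have := gTilt_ibp (lam := lam) P (p := fun y => u y ^ 3) (p' := fun y => 3 * (n y * u y ^ 2))
      (fun y => ((hu y).fun_pow 3).congr_deriv (by simp; ring)) (gu.pow 3)
      ((ExpGrow.const 3).mul (gn.mul (gu.pow 2))) huc
    rw [gTilt_mul, gTilt_congr (f := fun y => u y * u y ^ 3) (g := fun y => u y ^ 4)
      fun y => by ring, ← hN2, ← hB, ← hD] at this
    exact this
  have i3 : 1 + 2 * N3 = A - lam * B := by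
    have := gTilt_ibp (lam := lam) P (p := fun y => y * u y ^ 2)
      (p' := fun y => u y ^ 2 + 2 * (n y * u y * y))
      (fun y => ((hasDerivAt_id y).mul ((hu y).fun_pow 2)).congr_deriv (by simp; ring))
      (gy.mul (gu.pow 2)) ((gu.pow 2).add ((ExpGrow.const 2).mul ((gn.mul gu).mul gy))) huc
    rw [gTilt_add P (gu.pow 2) ((ExpGrow.const 2).mul ((gn.mul gu).mul gy)), gTilt_mul,
      gTilt_congr (f := fun y => y * (y * u y ^ 2)) (g := fun y => y ^ 2 * u y ^ 2)
        fun y => by ring,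
      gTilt_congr (f := fun y => u y * (y * u y ^ 2)) (g := fun y => y * u y ^ 3)
        fun y => by ring, hnorm, ← hN3, ← hA, ← hB] at this
    exact this
  have i4 : S = 1 + lam * W := by
    have := gTilt_ibp (lam := lam) P (p := fun y => y) (p' := fun _ => 1)
      (fun y => hasDerivAt_id y) gy (.const 1) huc
    rw [gTilt_one P, gTilt_congr (f := fun y => y * y) (g := fun y => y ^ 2) fun y => by ring,
      gTilt_congr (f := fun y => u y * y) (g := fun y => y * u y) fun y => by ring,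
      ← hS, ← hW] at this
    linarith
  have i5 : X = 3 * S + lam * V := by
    have := gTilt_ibp (lam := lam) P (p := fun y => y ^ 3) (p' := fun y => 3 * y ^ 2)
      (fun y => (hasDerivAt_pow 3 y).congr_deriv (by simp)) (gy.pow 3)
      ((ExpGrow.const 3).mul (gy.pow 2)) huc
    rw [gTilt_mul, gTilt_congr (f := fun y => y * y ^ 3) (g := fun y => y ^ 4) fun y => by ring,
      gTilt_congr (f := fun y => u y * y ^ 3) (g := fun y => y ^ 3 * u y) fun y => by ring,
      ← hS, ← hX, ← hV] at this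
    linarith
  exact ⟨i1, i2, i3, i4, i5⟩

/-- Association. -/
private theorem assoc_bds {u F : ℝ → ℝ} {lam C : ℝ} (P : Pot1 u F C) (gu : ExpGrow u)
    (hodd : ∀ y, u (-y) = -u y) (hmono : Monotone u)
    (hrat : ∀ x z, 0 ≤ x → x ≤ z → x * u z ≤ z * u x)
    (hnorm : gTilt lam F (fun y => u y ^ 2) = 1)
    {W : ℝ} (hW : W = gTilt lam F (fun y => y * u y))
    {S : ℝ} (hS : S = gTilt lam F (fun y => y ^ 2))
    {X : ℝ} (hX : X = gTilt lam F (fun y => y ^ 4))
    {A : ℝ} (hA : A = gTilt lam F (fun y => y ^ 2 * u y ^ 2))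
    {B : ℝ} (hB : B = gTilt lam F (fun y => y * u y ^ 3))
    {V : ℝ} (hV : V = gTilt lam F (fun y => y ^ 3 * u y))
    : S ≤ A ∧ V * S ≤ X * W ∧ A * S ≤ X ∧ B * S ≤ A * W := by
  have gy : ExpGrow fun y => y := .id
  have hu0 : u 0 = 0 := by have := hodd 0; rw [neg_zero] at this; linarith
  have habs : ∀ y, y * u y = |y| * u |y| ∧ u y ^ 2 = u |y| ^ 2 ∧ 0 ≤ u |y| := fun y => by
    refine ⟨?_, ?_, by simpa [hu0] using hmono (abs_nonneg y)⟩
    · rcases abs_choice y with h | h <;> rw [h]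
      rw [hodd]; ring
    · rcases abs_choice y with h | h <;> rw [h]
      rw [hodd]; ring
  have kern : ∀ x z, 0 ≤ (|x| ^ 2 - |z| ^ 2) * (u |x| ^ 2 - u |z| ^ 2) ∧
      (|x| ^ 2 - |z| ^ 2) * (u |x| * |z| - u |z| * |x|) ≤ 0 ∧
      (u |x| ^ 2 - u |z| ^ 2) * (u |x| * |z| - u |z| * |x|) ≤ 0 := fun x z =>
    kern1 (abs_nonneg x) (abs_nonneg z) (habs x).2.2 (habs z).2.2 (fun h => hmono h)
      (fun h => hrat _ _ (abs_nonneg x) h) (fun h => hmono h) (fun h => hrat _ _ (abs_nonneg z) h)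
  have hAS : S ≤ A := by
    have := gTilt_assoc (lam := lam) P (gy.pow 2) (gu.pow 2) ((gy.pow 2).mul (gu.pow 2))
      (.const 1) fun x z => by
        rw [(habs x).2.1, (habs z).2.1, ← sq_abs x, ← sq_abs z]; linarith [(kern x z).1]
    rw [hnorm, gTilt_one P, ← hS, ← hA] at this
    linarith
  have hVX : V * S ≤ X * W := by
    have := gTilt_assoc (lam := lam) P ((gy.pow 3).mul gu) (gy.pow 2) (gy.pow 4) (gy.mul gu)
      fun x z => by
        rw [show x ^ 3 * u x = x ^ 2 * (x * u x) by ring, show z ^ 3 * u z = z ^ 2 * (z * u z) by ring,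
          (habs x).1, (habs z).1, show x ^ 4 = (x ^ 2) ^ 2 by ring,
          show z ^ 4 = (z ^ 2) ^ 2 by ring, ← sq_abs x, ← sq_abs z]
        nlinarith [mul_nonpos_of_nonneg_of_nonpos (mul_nonneg (abs_nonneg x) (abs_nonneg z))
          (kern x z).2.1]
    rwa [← hS, ← hX, ← hW, ← hV] at this
  have hAX : A * S ≤ X := by
    have := gTilt_assoc (lam := lam) P ((gy.pow 2).mul (gu.pow 2)) (gy.pow 2) (gy.pow 4)
      (gu.pow 2) fun x z => by
        rw [(habs x).2.1, (habs z).2.1, show x ^ 4 = (x ^ 2) ^ 2 by ring,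
          show z ^ 4 = (z ^ 2) ^ 2 by ring, ← sq_abs x, ← sq_abs z]
        nlinarith [mul_nonpos_of_nonneg_of_nonpos
          (add_nonneg (mul_nonneg (habs x).2.2 (abs_nonneg z))
            (mul_nonneg (habs z).2.2 (abs_nonneg x))) (kern x z).2.1]
    rwa [hnorm, mul_one, ← hA, ← hS, ← hX] at this
  have hBS : B * S ≤ A * W := by
    have := gTilt_assoc (lam := lam) P (gy.mul (gu.pow 3)) (gy.pow 2)
      ((gy.pow 2).mul (gu.pow 2)) (gy.mul gu) fun x z => by
        rw [show x * u x ^ 3 = x * u x * u x ^ 2 by ring,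
          show z * u z ^ 3 = z * u z * u z ^ 2 by ring,
          (habs x).1, (habs z).1, (habs x).2.1, (habs z).2.1, ← sq_abs x, ← sq_abs z]
        nlinarith [mul_nonpos_of_nonneg_of_nonpos (mul_nonneg (abs_nonneg x) (abs_nonneg z))
          (kern x z).2.2]
    rwa [← hA, ← hS, ← hW, ← hB] at this
  exact ⟨hAS, hVX, hAX, hBS⟩

/-- The one-variable inequality holds. -/
theorem ineqStmt : IneqStmt := by
  intro u n F lam C hlam hu hF hn hC hodd hmono hrat hnorm hW1
  have P : Pot1 u F C := ⟨hF, fun y => (hC y).1⟩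
  have huc : Continuous u := continuous_iff_continuousAt.2 fun y => (hu y).continuousAt
  have hFc : Continuous F := continuous_iff_continuousAt.2 fun y => (hF y).continuousAt
  have gu : ExpGrow u := .bdd huc fun y => (hC y).1
  have gn : ExpGrow n := .bdd hn fun y => (hC y).2
  have gy : ExpGrow fun y => y := .id
  have hu0 : u 0 = 0 := by have := hodd 0; rw [neg_zero] at this; linarith
  have hn0 : ∀ y, 0 ≤ n y := fun y => (hu y).deriv ▸ hmono.deriv_nonneg
  -- moments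
  obtain ⟨W, hW⟩ : ∃ W, W = gTilt lam F fun y => y * u y := ⟨_, rfl⟩
  obtain ⟨S, hS⟩ : ∃ S, S = gTilt lam F fun y => y ^ 2 := ⟨_, rfl⟩
  obtain ⟨X, hX⟩ : ∃ X, X = gTilt lam F fun y => y ^ 4 := ⟨_, rfl⟩
  obtain ⟨A, hA⟩ : ∃ A, A = gTilt lam F fun y => y ^ 2 * u y ^ 2 := ⟨_, rfl⟩
  obtain ⟨B, hB⟩ : ∃ B, B = gTilt lam F fun y => y * u y ^ 3 := ⟨_, rfl⟩
  obtain ⟨D, hD⟩ : ∃ D, D = gTilt lam F fun y => u y ^ 4 := ⟨_, rfl⟩
  obtain ⟨V, hV⟩ : ∃ V, V = gTilt lam F fun y => y ^ 3 * u y := ⟨_, rfl⟩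
  obtain ⟨N1, hN1⟩ : ∃ N, N = gTilt lam F n := ⟨_, rfl⟩
  obtain ⟨N2, hN2⟩ : ∃ N, N = gTilt lam F fun y => n y * u y ^ 2 := ⟨_, rfl⟩
  obtain ⟨N3, hN3⟩ : ∃ N, N = gTilt lam F fun y => n y * u y * y := ⟨_, rfl⟩
  rw [← hW] at hW1 ⊢
  obtain ⟨i1, i2, i3, i4, i5⟩ :=
    parts_ids P hu gu gn hnorm hW hS hX hA hB hD hV hN1 hN2 hN3
  have hlW : lam ≤ W := by
    have := gTilt_nonneg (lam := lam) P gn hn0
    rw [← hN1] at this; linarith
  have hS0 : 0 < S := by rw [i4]; nlinarith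
  have hX0 : 0 ≤ X := hX ▸ gTilt_nonneg P (gy.pow 4) fun y => by positivity
  have hD0 : 0 ≤ D := hD ▸ gTilt_nonneg P (gu.pow 4) fun y => by positivity
  obtain ⟨hAS, hVX, hAX, hBS⟩ := assoc_bds P gu hodd hmono hrat hnorm hW hS hX hA hB hV
  have hX3 : X ≤ 3 * S ^ 2 := by
    have h1 := mul_le_mul_of_nonneg_left hVX hlam
    have h2 : X * S = (3 * S + lam * V) * S := by rw [← i5]
    have h3 : X * S = X + lam * (X * W) := by rw [i4]; ring
    nlinarith
  have hA3 : A ≤ 3 * S := le_of_mul_le_mul_right (by nlinarith) hS0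
  -- the Hermite step
  obtain ⟨b, H'⟩ := hermite_step (lam := lam) P hu gu gn hodd
  rw [expand_q P gu, expand_q' P gu gn, hnorm, ← hW, ← hS, ← hN1, ← hN2, ← hN3, ← hD, ← hB,
    ← hA] at H'
  refine endgame (b := b) hlam hlW hW1 i4 hAS hA3 hBS hD0 ?_
  have k2 : lam * N2 = lam * (B - lam * D) / 3 := by rw [← i2]; ring
  have k3 : lam * b * N3 = lam * b * (A - lam * B - 1) / 2 := by rw [← i3]; ring
  rw [i1, k2, k3] at H'
  have k4 : b ^ 2 * S = b ^ 2 + lam * b ^ 2 * W := by rw [i4]; ring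
  linarith

end Vale.Agent.P146
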