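import Vale.Agent.P146.Main
import Vale.Agent.P146.GMean
import Vale.Agent.P146.Goe.Main
import Vale.Agent.P146.MargIneq

/-!
# P146: the variance diverges below the critical temperature
-/

namespace Vale.Agent.P146

/-- Near minimisers have a marginal first tail variable. -/
theorem margStmt : MargStmt := margStmt_of semiStmt ineqStmt ratioStmt

/-- The variance is unbounded below the critical temperature. -/
theorem unboundedStmt : UnboundedStmt :=
  unboundedStmt_of Proj.varStmt fun β hβ x hx0 hx1 A ε hε =>
    gMean_ge spectralStmt margStmt β hβ x hx0 hx1 A ε hε

end Vale.Agent.P146
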