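import Vale.Agent.P146.Defs
import Vale.Agent.P166.Rsb.FormulaPath
import Vale.Agent.P157.Cube2.Intf
import Vale.Agent.P166.Defs

/-!
# P146: interfaces for an unbounded variance below the critical temperature

The GOE matrix `goe A` carries the couplings and an independent diagonal. Test fields built from the
Chebyshev polynomials `cheb a` of the matrix bound the variance from below by their Gibbs means
`gMean`; moving the spectrum down by a nonnegative polynomial in the variational formula bounds these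
means by its Stieltjes transform inside the first tail variable of a near minimiser, which is marginal.
-/

open MeasureTheory ProbabilityTheory Real Filter Topology Finset Polynomial
open Vale.Agent.P157.Rsb (IsPath vOf mass)
open Vale.Agent.P157.Cube2 (spinSup)
open Vale.Agent.P166 (IsTopEdge IsHaarOrth Admissible press)
open Vale.Agent.P166.Rsb (comb eng)

namespace Vale.Agent.P146

/-- The semicircle law on `[-2, 2]`, as the image of `2/π sin² θ` on `(0, π]` under `2 cos θ`. -/
noncomputable def semi : Measure ℝ :=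
  ((volume.restrict (Set.Ioc 0 π)).withDensity fun θ => ENNReal.ofReal (2 / π * sin θ ^ 2)).map
    fun θ => 2 * cos θ

/-- The Chebyshev polynomials orthonormal for the semicircle law. -/
noncomputable def cheb (a : ℕ) : Polynomial ℝ := Polynomial.Chebyshev.S ℝ a

/-- The law of the arrays under the GOE matrix. -/
noncomputable def arrLaw (n : ℕ) : Measure (Fin n × Fin n → ℝ) := Measure.pi fun _ => gaussianReal 0 1

/-- The GOE matrix of an array. -/
noncomputable def goe (n : ℕ) (A : Fin n × Fin n → ℝ) : Matrix (Fin n) (Fin n) ℝ :=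
  fun i j => (A (i, j) + A (j, i)) / √(2 * n)

/-- The quadratic form of a matrix at a configuration. -/
noncomputable def quad {n : ℕ} (M : Matrix (Fin n) (Fin n) ℝ) (x : Fin n → Bool) : ℝ :=
  ∑ i, ∑ j, P166.spin (x i) * M i j * P166.spin (x j)

/-- The mean pressure of the coupling matrix `f (goe A)`. -/
noncomputable def meanP (β : ℝ) (f : Polynomial ℝ) (n : ℕ) : ℝ :=
  ∫ A, log ((1 / 2) ^ n * ∑ x, exp (β / 2 * quad (aeval (goe n A) f) x)) / n ∂arrLaw n

/-- The Gibbs mean of the quadratic form of `p (goe A)`, per spin. -/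
noncomputable def gMean (β : ℝ) (p : Polynomial ℝ) (n : ℕ) : ℝ :=
  ∫ A, (∑ x, exp (β / 2 * quad (goe n A) x) * quad (aeval (goe n A) p) x)
    / (∑ x, exp (β / 2 * quad (goe n A) x)) / n ∂arrLaw n

/-- The functional of the formula at the semicircle law. -/
noncomputable def valueSemi (β : ℝ) (k : ℕ) (q : ℕ → ℝ) : ℝ := spinSup k q + eng semi 2 β k q

/-- Seat A: the GOE matrix has an invariant law, semicircular spectrum and no outliers, so its
mean pressure has the limit of the Haar model with that spectrum. -/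
def SpectralStmt : Prop :=
  ∀ (β : ℝ) (f : Polynomial ℝ) (b l : ℝ), 0 < β → IsTopEdge (semi.map f.eval) b →
    (∀ t ∈ Set.Icc (-2 : ℝ) 2, f.eval t ≤ b) →
    (∀ lam : ∀ N, Fin N → ℝ, Admissible (semi.map f.eval) b lam →
      ∀ m : ∀ N, Measure (Fin N → Fin N → ℝ), (∀ N, IsHaarOrth (m N)) →
        Tendsto (fun N => ∫ U, press β (lam N) U ∂m N) atTop (𝓝 l)) →
    Tendsto (meanP β f) atTop (𝓝 l)

/-- Seat B: the variance bound by test fields. -/
def VarStmt : Prop :=
  ∀ (β ε : ℝ) (J : ℕ) (c : ℕ → ℝ), 0 < β → 0 < ε → ∀ᶠ n in atTop,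
    (∑ a ∈ range J, c a * (β / 2 * gMean β (cheb a) n)) ^ 2 ≤
      (freeVar n β + β ^ 2 / 2) * (2 * ∑ a ∈ range J, c a ^ 2 * (a + 1) + ε)

/-- Seat C: the semicircle law, its Stieltjes transforms, and the functional at it. -/
def SemiStmt : Prop :=
  IsProbabilityMeasure semi ∧ IsTopEdge semi 2 ∧ semi (Set.Iio (-2)) = 0 ∧
    (∀ x : ℝ, 0 < x → x < 1 → ∀ a : ℕ,
      ∫ t, (cheb a).eval t / (x + 1 / x - t) ∂semi = x ^ (a + 1)) ∧
    (∀ (t : ℝ) (a : ℕ), (cheb a).eval t ^ 2 = ∑ i ∈ range (a + 1), (cheb (2 * i)).eval t) ∧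
    ∀ (β : ℝ) (k : ℕ) (q : ℕ → ℝ), 0 < β → IsPath k q →
      eng semi 2 β k q ≤ β ^ 2 / 4 * (1 - mass k * ∑ l ∈ Icc 1 k, q l ^ 2) ∧
      (β * vOf k q 0 ≤ 1 → eng semi 2 β k q = β ^ 2 / 4 * (1 - mass k * ∑ l ∈ Icc 1 k, q l ^ 2))

/-- Seat D (helper9): near minimisers with a marginal first tail variable. -/
def MargStmt : Prop :=
  ∀ β : ℝ, 1 < β → ∀ δ : ℝ, 0 < δ → ∃ k₀ : ℕ, ∀ k : ℕ, k₀ ≤ k → ∀ q : ℕ → ℝ, IsPath k q →
    ∃ q', IsPath k q' ∧ valueSemi β k q' ≤ valueSemi β k q ∧ 1 - δ ≤ β * vOf k q' 0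

/-- The hand-in: the variance is unbounded at every temperature below the critical one. -/
def UnboundedStmt : Prop := ∀ β : ℝ, 1 < β → Tendsto (fun n => freeVar n β) atTop atTop

end Vale.Agent.P146
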