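import Vale.Agent.P157.Cube2.Concave
import Vale.Agent.P157.Cube2.SpinFacts

/-!
# P146: the one-spin recursion is continuous in the variances, also where increments vanish

`ℕ → ℝ` carries the product topology. Continuity up to vanishing increments extends the tangent
inequality to nondecreasing variances.
-/

open MeasureTheory ProbabilityTheory Real Filter Topology Finset
open Vale.Agent.P157.Rsb (lev mass)
open Vale.Agent.P157.Cube2

namespace Vale.Agent.P146

variable {k : ℕ} {r : ℕ → ℝ}

section param

variable {X : Type} [TopologicalSpace X] [FirstCountableTopology X] {a : X → ℝ}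
  {F : X → ℝ → ℝ} {φ ψ : X → ℝ → ℝ} {m C : ℝ}

theorem continuous_num_param (ha : Continuous a) (hF : Continuous fun p : X × ℝ => F p.1 p.2)
    (hP : ∀ x, Pot (F x)) (hφ : Continuous fun p : X × ℝ => φ p.1 p.2) (hC : ∀ x h, |φ x h| ≤ C) :
    Continuous fun p : X × ℝ => num m (a p.1) (F p.1) (φ p.1) p.2 := by
  have hsec : ∀ x, Continuous (φ x) := fun x => hφ.comp (continuous_const.prodMk continuous_id)
  refine continuous_iff_continuousAt.2 fun p => ?_
  set B := |F p.1 0| + 1 + (|p.2| + 1) with hB
  set A := √(a p.1) + 1 with hA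
  have ev : ∀ᶠ q in 𝓝 p, |F q.1 0| < |F p.1 0| + 1 ∧ |q.2| < |p.2| + 1 ∧
      √(a q.1) < √(a p.1) + 1 := by
    have c1 : Continuous fun q : X × ℝ => |F q.1 0| :=
      (hF.comp (continuous_fst.prodMk continuous_const)).abs
    have c3 : Continuous fun q : X × ℝ => √(a q.1) := (ha.comp continuous_fst).sqrt
    filter_upwards [c1.continuousAt.eventually (Iio_mem_nhds (lt_add_one _)),
      continuous_snd.abs.continuousAt.eventually (Iio_mem_nhds (lt_add_one _)),
      c3.continuousAt.eventually (Iio_mem_nhds (lt_add_one _))] with q a1 a2 a3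
    exact ⟨a1, a2, a3⟩
  unfold num
  refine continuousAt_of_dominated
    (bound := fun y => C * exp (|m| * B) * exp (|m| * A * |y|))
    (Eventually.of_forall fun q => (int_num (hP q.1) (hsec q.1) (hC q.1) q.2).aestronglyMeasurable) ?_
    ((int_exp_abs _).const_mul _) (ae_of_all _ fun y => ?_)
  · filter_upwards [ev] with q ⟨a1, a2, a3⟩
    refine ae_of_all _ fun y => ?_
    rw [Real.norm_eq_abs, abs_mul, Real.abs_exp, mul_assoc, ← exp_add]
    refine mul_le_mul (hC _ _) (exp_le_exp.2 (((hP q.1).bound (m := m) (a := a q.1) 0 q.2 y).trans ?_))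
      (exp_pos _).le ((abs_nonneg _).trans (hC p.1 0))
    rw [sub_zero, mul_assoc _ √_, mul_assoc _ A, ← mul_add, ← mul_add]
    refine mul_le_mul_of_nonneg_left (add_le_add ?_ (mul_le_mul_of_nonneg_right ?_ (abs_nonneg y)))
      (abs_nonneg _)
    · rw [hB]; linarith
    · rw [hA]; linarith
  · have h1 : Continuous fun q : X × ℝ => (q.1, q.2 + √(a q.1) * y) :=
      continuous_fst.prodMk (continuous_snd.add ((ha.comp continuous_fst).sqrt.mul continuous_const))
    exact ((hφ.comp h1).mul ((continuous_const.mul (hF.comp h1)).rexp)).continuousAt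

theorem continuous_tE_param (ha : Continuous a) (hF : Continuous fun p : X × ℝ => F p.1 p.2)
    (hP : ∀ x, Pot (F x)) (hφ : Continuous fun p : X × ℝ => φ p.1 p.2) (hC : ∀ x h, |φ x h| ≤ C) :
    Continuous fun p : X × ℝ => tE m (a p.1) (F p.1) (φ p.1) p.2 := by
  have hd := continuous_num_param (m := m) ha hF hP (φ := fun _ _ => 1) (C := 1) continuous_const
    (fun _ _ => by simp)
  simp only [num, one_mul] at hd
  unfold tE
  exact (continuous_num_param ha hF hP hφ hC).div (by simp only [den]; exact hd)
    fun p => (den_pos (hP p.1) p.2).ne'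

theorem continuous_tC_param (ha : Continuous a) (hF : Continuous fun p : X × ℝ => F p.1 p.2)
    (hP : ∀ x, Pot (F x)) (hφ : Continuous fun p : X × ℝ => φ p.1 p.2) (hC : ∀ x h, |φ x h| ≤ C) :
    Continuous fun p : X × ℝ => tC m (a p.1) (F p.1) (φ p.1) (φ p.1) p.2 := by
  unfold tC
  have h2 : ∀ x h, |φ x h * φ x h| ≤ C * C := fun x h => by
    rw [abs_mul]; exact mul_le_mul (hC x h) (hC x h) (abs_nonneg _) ((abs_nonneg _).trans (hC x h))
  exact (continuous_tE_param ha hF hP (φ := fun x h => φ x h * φ x h) (hφ.mul hφ) h2).sub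
    ((continuous_tE_param ha hF hP hφ hC).mul (continuous_tE_param ha hF hP hφ hC))

end param

theorem continuous_spinF {j : ℕ} : Continuous fun p : (ℕ → ℝ) × ℝ => spinF k p.1 j p.2 :=
  continuous_spinN (ρ := id) (fun i => continuous_apply i) (k - j) (Nat.sub_le k j)

private theorem continuous_incr (j : ℕ) : Continuous fun r : ℕ → ℝ => r j - r (j - 1) :=
  (continuous_apply j).sub (continuous_apply _)

theorem continuous_spinU {j : ℕ} (hj : j ≤ k) :
    Continuous fun p : (ℕ → ℝ) × ℝ => spinU k p.1 j p.2 := by
  refine spinF_induction (P := fun j => Continuous fun p : (ℕ → ℝ) × ℝ => spinU k p.1 j p.2) ?_ ?_ hj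
  · simp only [spinU, spinF_top, deriv_logcosh]; exact continuous_tanh'.comp continuous_snd
  · intro j h1 h2 ih
    simp only [spinU_step h1 h2]
    exact continuous_tE_param (F := fun r => spinF k r j) (φ := fun r => spinU k r j) (continuous_incr j) continuous_spinF (fun x => pot_spinF h2) ih
      (fun x h => spinU_abs h2 h)

theorem spinU'_le_one {j : ℕ} (hj : j ≤ k) (h : ℝ) : deriv (spinU k r j) h ≤ 1 := by
  have hm := magn_identity (r := r) hj h
  have h1 : 0 ≤ mass k * ∑ l ∈ Ioc j k, spinW k r l j h := mul_nonneg massK_pos.le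
    (sum_nonneg fun l hl => (spinW_mem (mem_Ioc.1 hl).1.le (mem_Ioc.1 hl).2 h).1)
  linarith [mul_nonneg (levK_nonneg (k := k) (j + 1)) (sq_nonneg (spinU k r j h))]

theorem abs_spinU'_le {j : ℕ} (hj : j ≤ k) (h : ℝ) : |deriv (spinU k r j) h| ≤ 1 :=
  abs_le.2 ⟨by linarith [spinU'_nonneg (r := r) hj h], spinU'_le_one hj h⟩

theorem continuous_spinU' {j : ℕ} (hj : j ≤ k) :
    Continuous fun p : (ℕ → ℝ) × ℝ => deriv (spinU k p.1 j) p.2 := by
  refine spinF_induction (P := fun j => Continuous fun p : (ℕ → ℝ) × ℝ =>
    deriv (spinU k p.1 j) p.2) ?_ ?_ hj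
  · simp only [spinU, spinF_top, deriv_logcosh, (hasDerivAt_tanh' _).deriv]
    exact continuous_const.sub ((continuous_tanh'.comp continuous_snd).pow 2)
  · intro j h1 h2 ih
    simp only [spinU_deriv_step h1 h2]
    exact (continuous_tE_param (F := fun r => spinF k r j) (φ := fun r => deriv (spinU k r j)) (continuous_incr j) continuous_spinF (fun x => pot_spinF h2) ih
      (fun x h => abs_spinU'_le h2 h)).add (continuous_const.mul (continuous_tC_param (F := fun r => spinF k r j)
      (φ := fun r => spinU k r j) (continuous_incr j) continuous_spinF (fun x => pot_spinF h2)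
      (continuous_spinU h2)
      fun x h => spinU_abs h2 h))

theorem continuous_spinW {l j : ℕ} (hjl : j ≤ l) (hl : l ≤ k) :
    Continuous fun p : (ℕ → ℝ) × ℝ => spinW k p.1 l j p.2 := by
  induction hd : l - j generalizing j with
  | zero =>
    rw [show j = l by omega]
    simp only [spinW_self]
    exact (continuous_spinU hl).pow 2
  | succ d ih =>
    have e : ∀ r, spinW k r l j = tE (lev k (j + 1)) (r (j + 1) - r j) (spinF k r (j + 1))
        (spinW k r l (j + 1)) := fun r => by simpa using spinW_step (k := k) (r := r) (show 1 ≤ j + 1 by omega) (show j + 1 ≤ l by omega)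
    simp only [e]
    refine continuous_tE_param (a := fun r : ℕ → ℝ => r (j + 1) - r j)
      (F := fun r => spinF k r (j + 1)) (φ := fun r => spinW k r l (j + 1))
      ((continuous_apply (j + 1)).sub (continuous_apply j)) continuous_spinF
      (fun x => pot_spinF (by omega)) (ih (by omega) (by omega)) (C := 1) fun x h => ?_
    obtain ⟨h1, h2⟩ := spinW_mem (r := x) (show j + 1 ≤ l by omega) hl h
    rw [abs_of_nonneg h1]; exact h2

theorem continuous_spinQ {l : ℕ} (hl : l ≤ k) : Continuous fun r => spinQ k r l :=
  (continuous_spinW (Nat.zero_le l) hl).comp (continuous_id.prodMk continuous_const)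

theorem continuous_spinG' : Continuous fun r => spinG k r := by
  unfold spinG
  exact (continuous_spinF.comp (continuous_id.prodMk continuous_const)).sub
    ((continuous_apply k).div_const 2)

/-- The diagonal second-order coefficient is continuous. -/
theorem continuous_coef_diag {l : ℕ} (hl : l ≤ k) :
    Continuous fun r => coef k r l l 0 0 := by
  suffices h : ∀ j, j ≤ l → Continuous fun p : (ℕ → ℝ) × ℝ => coef k p.1 l l j p.2 from
    (h 0 (Nat.zero_le l)).comp (continuous_id.prodMk continuous_const)
  intro j hjl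
  induction hd : l - j generalizing j with
  | zero =>
    rw [show j = l by omega]
    simp only [coef_self, lt_irrefl, if_false, if_true]
    exact (continuous_spinU' hl).pow 2
  | succ d ih =>
    have hjk : j + 1 ≤ k := by omega
    have ha : Continuous fun r : ℕ → ℝ => r (j + 1) - r j :=
      (continuous_apply (j + 1)).sub (continuous_apply j)
    have hW : ∀ x h, |spinW k x l (j + 1) h| ≤ 1 := fun x h => by
      obtain ⟨h1, h2⟩ := spinW_mem (r := x) (show j + 1 ≤ l by omega) hl h
      rw [abs_of_nonneg h1]; exact h2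
    obtain ⟨C, hC⟩ := bd_coef (k := k) (show j + 1 ≤ l by omega) hl hl
    have c1 := continuous_tE_param (m := lev k (j + 1)) (F := fun r => spinF k r (j + 1))
      (φ := fun r => coef k r l l (j + 1)) ha continuous_spinF
      (fun x => pot_spinF hjk) (ih (j + 1) (by omega) (by omega)) fun x h => (hC x).abs_le h
    have c2 := continuous_tC_param (m := lev k (j + 1)) (F := fun r => spinF k r (j + 1))
      (φ := fun r => spinW k r l (j + 1)) ha continuous_spinF
      (fun x => pot_spinF hjk) (continuous_spinW (show j + 1 ≤ l by omega) hl) hW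
    have e : ∀ r, coef k r l l j = fun x =>
        tE (lev k (j + 1)) (r (j + 1) - r j) (spinF k r (j + 1)) (coef k r l l (j + 1)) x
          + -(mass k * lev k (j + 1) / 2) * tC (lev k (j + 1)) (r (j + 1) - r j)
            (spinF k r (j + 1)) (spinW k r l (j + 1)) (spinW k r l (j + 1)) x
          + (if l = j + 1 then -mass k else 0) * tE (lev k (j + 1)) (r (j + 1) - r j)
            (spinF k r (j + 1)) (fun x => spinU k r (j + 1) x * deriv (spinW k r l (j + 1)) x) x :=
      fun r => by
        have h := coef_step (k := k) (r := r) (i := l) (show 1 ≤ j + 1 by omega)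
          (show j + 1 ≤ l by omega)
        rw [if_neg (by omega)] at h
        simpa using h
    simp only [e]
    refine (c1.add (continuous_const.mul c2)).add ?_
    by_cases h : l = j + 1
    · subst h
      have e1 : ∀ r x, deriv (spinW k r (j + 1) (j + 1)) x
          = 2 * (spinU k r (j + 1) x * deriv (spinU k r (j + 1)) x) := fun r x => by
        obtain ⟨C, hC⟩ := bd2_u (r := r) hl
        rw [spinW_self, deriv_fun_pow (hC.1 x)]; push_cast; ring
      simp only [if_pos, e1]
      refine continuous_const.mul ?_
      refine continuous_tE_param (F := fun r => spinF k r (j + 1)) ha continuous_spinF (fun x => pot_spinF hjk)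
        (φ := fun r x => spinU k r (j + 1) x * (2 * (spinU k r (j + 1) x * deriv (spinU k r (j + 1)) x)))
        ((continuous_spinU hl).mul (continuous_const.mul ((continuous_spinU hl).mul (continuous_spinU' hl))))
        (C := 1 * (2 * (1 * 1))) fun x h => ?_
      simp only [abs_mul, abs_two]
      gcongr <;> first | exact spinU_abs hl _ | exact abs_spinU'_le hl _
    · simp only [if_neg h, zero_mul]
      exact continuous_const

/-- The tangent inequality for nondecreasing variances. -/
theorem spinG_tangent_le {r r' : ℕ → ℝ} (h0 : r 0 = r' 0)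
    (hr : ∀ j, 1 ≤ j → j ≤ k → r (j - 1) ≤ r j) (hr' : ∀ j, 1 ≤ j → j ≤ k → r' (j - 1) ≤ r' j) :
    spinG k r ≤ spinG k r' - mass k / 2 * ∑ l ∈ Icc 1 k, spinQ k r' l * (r l - r' l) := by
  set rη : ℝ → ℕ → ℝ := fun η i => r' i + η * i with hrη
  have hc : Continuous rη := continuous_pi fun i => by simp only [hrη]; fun_prop
  have hT : Continuous fun η => spinG k (rη η)
      - mass k / 2 * ∑ l ∈ Icc 1 k, spinQ k (rη η) l * (r l - rη η l) :=
    (continuous_spinG'.comp hc).sub (continuous_const.mul (continuous_finsetSum _ fun l hl =>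
      ((continuous_spinQ (mem_Icc.1 hl).2).comp hc).mul
        (continuous_const.sub ((continuous_apply l).comp hc))))
  have e : rη 0 = r' := by funext i; simp [hrη]
  have h := ge_of_tendsto (b := spinG k r)
    (((hT.tendsto 0).mono_left (nhdsWithin_le_nhds (s := Set.Ioi 0))))
    (eventually_mem_nhdsWithin.mono fun η (hη : 0 < η) =>
      spinG_tangent (by simp [hrη, h0]) hr fun j h1 h2 => by
        have h3 := hr' j h1 h2
        simp only [hrη, Nat.cast_sub h1, Nat.cast_one]; linarith)
  simpa [e] using h

/-- One step with no variance is evaluation. -/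
theorem tE_zero (m : ℝ) (f φ : ℝ → ℝ) (h : ℝ) : tE m 0 f φ h = φ h := by
  simp [tE, num, den, (exp_pos _).ne']

theorem tC_zero (m : ℝ) (f φ ψ : ℝ → ℝ) (h : ℝ) : tC m 0 f φ ψ h = 0 := by
  simp [tC, tE_zero]

/-- The overlaps increase along the levels. -/
theorem spinQ_mono {l : ℕ} (hl : l + 1 ≤ k) : spinQ k r l ≤ spinQ k r (l + 1) := by
  suffices h : ∀ j, j ≤ l → ∀ x, spinW k r l j x ≤ spinW k r (l + 1) j x from h 0 (Nat.zero_le l) 0
  intro j hjl
  induction hd : l - j generalizing j with
  | zero =>
    intro x
    rw [show j = l by omega, spinW_self]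
    obtain ⟨C, hC⟩ := bd2_u (r := r) hl
    have e := congrFun (spinU_step (r := r) (show 1 ≤ l + 1 by omega) hl) x
    rw [show spinW k r (l + 1) l = spinW k r (l + 1) (l + 1 - 1) by simp,
      spinW_step (by omega) le_rfl, spinW_self]
    simp only [Nat.add_sub_cancel] at e ⊢
    have h1 := tC_self_nonneg (m := lev k (l + 1)) (a := r (l + 1) - r l) (pot_spinF (r := r) hl) hC x
    simp only [tC, ← sq] at h1
    rw [e]
    linarith
  | succ d ih =>
    intro x
    obtain ⟨C, hC⟩ := bd2_w (r := r) (show j + 1 ≤ l by omega) (show l ≤ k by omega)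
    obtain ⟨D, hD⟩ := bd2_w (r := r) (show j + 1 ≤ l + 1 by omega) hl
    rw [show spinW k r l j = spinW k r l (j + 1 - 1) by simp, spinW_step (by omega) (by omega),
      show spinW k r (l + 1) j = spinW k r (l + 1) (j + 1 - 1) by simp,
      spinW_step (by omega) (by omega)]
    exact tE_mono (pot_spinF (by omega)) hC hD (ih (j + 1) (by omega) (by omega)) x

end Vale.Agent.P146
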