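import Vale.Agent.P146.MargCont
import Vale.Agent.P146.Pins

/-!
# P146: minimisers of the annealed functional on a grid

`parisiP` agrees with the functional where the first tail variable is below critical and dominates it
at its minimisers, whose overlaps are self-consistent and stable against lowering a level.
-/

open MeasureTheory ProbabilityTheory Real Filter Topology Finset
open Vale.Agent.P157.Rsb (lev mass IsPath vOf)
open Vale.Agent.P157.Cube2
open Vale.Agent.P166.Rsb (eng)

namespace Vale.Agent.P146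

variable {k : ℕ} {β : ℝ} {q : ℕ → ℝ}

/-- The field variances of a path. -/
def scale (β : ℝ) (q : ℕ → ℝ) : ℕ → ℝ := fun l => β ^ 2 * q l

/-- The functional with the semicircle energy replaced by its quadratic form. -/
noncomputable def parisiP (β : ℝ) (k : ℕ) (q : ℕ → ℝ) : ℝ :=
  spinG k (scale β q) + β ^ 2 / 4 * (1 + mass k * ∑ l ∈ Icc 1 k, q l ^ 2)

/-- `q` minimises `parisiP` among the paths that agree with it beyond the grid. -/
def IsMinPath (β : ℝ) (k : ℕ) (q : ℕ → ℝ) : Prop :=
  IsPath k q ∧ ∀ p, IsPath k p → (∀ l, k < l → p l = q l) → parisiP β k q ≤ parisiP β k p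

theorem continuous_scale (β : ℝ) : Continuous (scale β) :=
  continuous_pi fun l => continuous_const.mul (continuous_apply l)

theorem scale_isVar (hq : IsPath k q) : IsVar k (scale β q) :=
  ⟨by simp [scale, hq.1], fun j hj => mul_le_mul_of_nonneg_left (hq.2.1 j hj) (sq_nonneg β)⟩

theorem scale_mono (hq : IsPath k q) :
    ∀ j, 1 ≤ j → j ≤ k → scale β q (j - 1) ≤ scale β q j := fun j h1 h2 => by
  have h := (scale_isVar (β := β) hq).2 (j - 1) (by omega)
  rwa [show j - 1 + 1 = j by omega] at h

theorem exists_isMinPath (hq : IsPath k q) :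
    ∃ q', IsMinPath β k q' ∧ parisiP β k q' ≤ parisiP β k q := by
  set K := {p : ℕ → ℝ | IsPath k p ∧ ∀ l, k < l → p l = q l} with hK
  have hbox : IsCompact (Set.univ.pi fun l => if l ≤ k then Set.Icc (0 : ℝ) 1 else {q l}) :=
    isCompact_univ_pi fun l => by split_ifs; exacts [isCompact_Icc, isCompact_singleton]
  have hcl : IsClosed K := by
    have e : K = {p : ℕ → ℝ | p 0 = 0} ∩ (⋂ j, ⋂ (_ : j < k), {p : ℕ → ℝ | p j ≤ p (j + 1)})
        ∩ {p : ℕ → ℝ | p k ≤ 1} ∩ ⋂ l, ⋂ (_ : k < l), {p : ℕ → ℝ | p l = q l} := by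
      ext p; simp [hK, IsPath, and_assoc]
    rw [e]
    exact (((isClosed_eq (continuous_apply 0) continuous_const).inter (isClosed_iInter fun j =>
      isClosed_iInter fun _ => isClosed_le (continuous_apply j) (continuous_apply _))).inter
      (isClosed_le (continuous_apply k) continuous_const)).inter (isClosed_iInter fun l =>
      isClosed_iInter fun _ => isClosed_eq (continuous_apply l) continuous_const)
  have hcomp : IsCompact K := hbox.of_isClosed_subset hcl fun p hp => Set.mem_univ_pi.2 fun l => by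
    split_ifs with h
    · exact isPath_mem hp.1 h
    · exact hp.2 l (not_le.1 h)
  have hcont : Continuous (parisiP β k) := by
    unfold parisiP
    exact ((continuous_spinG'.comp (continuous_scale β))).add (continuous_const.mul
      (continuous_const.add (continuous_const.mul (continuous_finsetSum _ fun l _ =>
        (continuous_apply l).pow 2))))
  obtain ⟨q', hq', hmin⟩ := hcomp.exists_isMinOn ⟨q, hq, fun _ _ => rfl⟩ hcont.continuousOn
  exact ⟨q', ⟨hq'.1, fun p hp hpl => hmin ⟨hp, fun l hl => (hpl l hl).trans (hq'.2 l hl)⟩⟩,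
    hmin ⟨hq, fun _ _ => rfl⟩⟩

/-- A minimiser is the path of its overlaps. -/
theorem IsMinPath.overlap (h : IsMinPath β k q) (hβ : β ≠ 0) :
    ∀ l ∈ Icc 1 k, spinQ k (scale β q) l = q l := by
  obtain ⟨hq, hmin⟩ := h
  set Q := fun l => spinQ k (scale β q) l with hQ
  set S := ∑ l ∈ Icc 1 k, (Q l - q l) ^ 2 with hS
  set p : ℝ → ℕ → ℝ := fun t l =>
    if l = 0 then 0 else if l ≤ k then (1 - t) * q l + t * Q l else q l with hp
  have hpath : ∀ t, 0 ≤ t → t ≤ 1 → IsPath k (p t) := fun t t0 t1 => by
    refine ⟨by simp [hp], fun j hj => ?_, ?_⟩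
    · simp only [hp, Nat.add_one_ne_zero, if_false, show j + 1 ≤ k by omega, show j ≤ k by omega, if_true]
      by_cases hj0 : j = 0
      · simp only [hj0, if_true]
        exact add_nonneg (mul_nonneg (by linarith) (isPath_mem hq (by omega)).1)
          (mul_nonneg t0 (spinQ_mem (by omega)).1)
      · simp only [hj0, if_false]
        exact add_le_add (mul_le_mul_of_nonneg_left (hq.2.1 j hj) (by linarith))
          (mul_le_mul_of_nonneg_left (spinQ_mono (by omega)) t0)
    · simp only [hp, le_refl, if_true]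
      split_ifs
      · exact zero_le_one
      · calc (1 - t) * q k + t * Q k ≤ (1 - t) * 1 + t * 1 :=
              add_le_add (mul_le_mul_of_nonneg_left hq.2.2 (by linarith))
                (mul_le_mul_of_nonneg_left (spinQ_mem le_rfl).2 t0)
          _ = 1 := by ring
  have hstep : ∀ t, 0 < t → t ≤ 1 → S ≤ t / 2 * S := by
    intro t t0 t1
    have hm := hmin (p t) (hpath t t0.le t1) fun l hl => by
      simp [hp, show ¬l = 0 by omega, show ¬l ≤ k by omega]
    have ht := spinG_tangent_le (k := k) (r := scale β (p t)) (r' := scale β q)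
      (by simp [scale, hp, hq.1]) (scale_mono (hpath t t0.le t1)) (scale_mono hq)
    have e : ∀ l ∈ Icc 1 k, p t l = q l + t * (Q l - q l) := fun l hl => by
      obtain ⟨h1, h2⟩ := mem_Icc.1 hl
      simp [hp, show ¬l = 0 by omega, h2]; ring
    have e1 : ∑ l ∈ Icc 1 k, spinQ k (scale β q) l * (scale β (p t) l - scale β q l)
        = β ^ 2 * t * (∑ l ∈ Icc 1 k, q l * (Q l - q l) + S) := by
      rw [hS, ← sum_add_distrib, mul_sum]
      exact sum_congr rfl fun l hl => by simp only [scale, e l hl, hQ]; ring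
    have e2 : ∑ l ∈ Icc 1 k, p t l ^ 2 = ∑ l ∈ Icc 1 k, q l ^ 2
        + 2 * t * ∑ l ∈ Icc 1 k, q l * (Q l - q l) + t ^ 2 * S := by
      rw [hS, mul_sum, mul_sum, ← sum_add_distrib, ← sum_add_distrib]
      exact sum_congr rfl fun l hl => by rw [e l hl]; ring
    rw [e1] at ht
    simp only [parisiP, e2] at hm
    have hm0 : 0 < mass k / 2 * β ^ 2 * t := by
      have := massK_pos (k := k); positivity
    have : 0 ≤ mass k / 2 * β ^ 2 * t * (t / 2 * S - S) := by linarith
    nlinarith
  have hS0 : S = 0 := le_antisymm (by have := hstep 1 one_pos le_rfl; linarith)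
    (sum_nonneg fun l _ => sq_nonneg _)
  intro l hl
  have := (sum_eq_zero_iff_of_nonneg fun l _ => sq_nonneg (Q l - q l)).1 hS0 l hl
  simpa [sub_eq_zero] using sq_eq_zero_iff.1 this

theorem IsMinPath.valueSemi_le (h : IsMinPath β k q) (hS : SemiStmt) (hβ : 0 < β) :
    valueSemi β k q ≤ parisiP β k q := by
  have he := (hS.2.2.2.2.2 β k q hβ h.1).1
  have hsup : spinSup k q ≤ spinG k (scale β q) + mass k / 2 * (β ^ 2 * ∑ l ∈ Icc 1 k, q l ^ 2) := by
    refine csSup_le (spin.2.1 k q h.1).1 ?_
    rintro _ ⟨r, hr, rfl⟩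
    have ht := spinG_tangent_le (k := k) (r := r) (r' := scale β q) (by simp [scale, hr.1, h.1.1])
      (fun j h1 h2 => by
        have := hr.2 (j - 1) (by omega)
        rwa [show j - 1 + 1 = j by omega] at this) (scale_mono h.1)
    have e : ∑ l ∈ Icc 1 k, spinQ k (scale β q) l * (r l - scale β q l)
        = ∑ l ∈ Icc 1 k, q l * r l - β ^ 2 * ∑ l ∈ Icc 1 k, q l ^ 2 := by
      rw [mul_sum, ← sum_sub_distrib]
      exact sum_congr rfl fun l hl => by rw [h.overlap hβ.ne' l hl, scale]; ring
    rw [e] at ht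
    simp only [spinObj]
    linarith
  simp only [valueSemi, parisiP]
  linarith

theorem parisiP_le_valueSemi (hS : SemiStmt) (hβ : 0 < β) (hq : IsPath k q)
    (hv : β * vOf k q 0 ≤ 1) : parisiP β k q ≤ valueSemi β k q := by
  have he := (hS.2.2.2.2.2 β k q hβ hq).2 hv
  have hsup : spinObj k q (scale β q) ≤ spinSup k q :=
    le_csSup (spin.2.1 k q hq).2.1 ⟨_, scale_isVar hq, rfl⟩
  have e : ∑ l ∈ Icc 1 k, q l * scale β q l = β ^ 2 * ∑ l ∈ Icc 1 k, q l ^ 2 := by
    rw [mul_sum]; exact sum_congr rfl fun l _ => by rw [scale]; ring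
  simp only [spinObj, e] at hsup
  simp only [valueSemi, parisiP, he]
  linarith

/-- The first positive level of a minimiser is stable against lowering it. -/
theorem IsMinPath.stable (h : IsMinPath β k q) (hβ : β ≠ 0) {l : ℕ} (hl : 1 ≤ l) (hlk : l ≤ k)
    (hlo : ∀ i < l, q i = 0) (hc : 0 < q l) :
    β ^ 2 * coef k (scale β q) l l 0 0 ≤ 1 := by
  by_contra hcon
  obtain ⟨hq, hmin⟩ := h
  set d : ℕ → ℝ := fun i => if i = l then -β ^ 2 else 0 with hd
  set R : ℝ × ℝ → ℕ → ℝ := fun p i => scale β q i + p.1 * i + p.2 * d i with hR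
  have hRc : Continuous R := continuous_pi fun i => by simp only [hR]; fun_prop
  have hR0 : R 0 = scale β q := by funext i; simp [hR]
  set e := (β ^ 2 * coef k (scale β q) l l 0 0 - 1) / 2 with he
  have he0 : 0 < e := by rw [he]; linarith [not_le.1 hcon]
  have hev : ∀ᶠ p in 𝓝 (0 : ℝ × ℝ), 1 + e < β ^ 2 * coef k (R p) l l 0 0 := by
    have hcc : Continuous fun p => β ^ 2 * coef k (R p) l l 0 0 :=
      continuous_const.mul ((continuous_coef_diag hlk).comp hRc)
    refine hcc.continuousAt.eventually (Ioi_mem_nhds ?_)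
    simp only [hR0, he]; linarith [not_le.1 hcon]
  obtain ⟨ρ, hρ, hball⟩ := Metric.eventually_nhds_iff.1 hev
  set t₀ := min (ρ / 2) (q l / 2) with ht₀
  have ht00 : 0 < t₀ := lt_min (by linarith) (by linarith)
  have d0 : d 0 = 0 := by simp [hd, show ¬0 = l by omega]
  have hpos : ∀ η, 0 < η → ∀ s ∈ Set.Icc 0 t₀,
      ∃ ε, PosNear k (fun i => scale β q i + η * i) d s ε := by
    intro η hη s hs
    have hs' : ∀ j, 1 ≤ j → j ≤ k → line (fun i => scale β q i + η * i) d s (j - 1)
        < line (fun i => scale β q i + η * i) d s j := fun j h1 h2 => by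
      have hb := mul_nonneg (sq_nonneg β) hs.1
      simp only [line, hd, Nat.cast_sub h1, Nat.cast_one, scale]
      by_cases hj : j = l
      · subst hj
        simp only [show ¬j - 1 = j by omega, if_false, if_true, hlo (j - 1) (by omega), mul_zero]
        nlinarith [mul_le_mul_of_nonneg_left (show s ≤ q j by
          linarith [hs.2, min_le_right (ρ / 2) (q j / 2)]) (sq_nonneg β)]
      · have := scale_mono (β := β) hq j h1 h2
        simp only [scale] at this
        simp only [hj, if_false, mul_zero, add_zero]; split_ifs <;> linarith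
    have hev' : ∀ᶠ t in 𝓝 s, ∀ j ∈ Icc 1 k, line (fun i => scale β q i + η * i) d t (j - 1)
        < line (fun i => scale β q i + η * i) d t j := by
      refine (eventually_all_finset _).2 fun j hj => ?_
      have hc' : ∀ i, ContinuousAt (fun t => line (fun i => scale β q i + η * i) d t i) s := fun i => by
        unfold line; fun_prop
      exact (hc' (j - 1)).eventually_lt (hc' j) (hs' j (mem_Icc.1 hj).1 (mem_Icc.1 hj).2)
    obtain ⟨ε, hε, hh⟩ := Metric.eventually_nhds_iff.1 hev'
    exact ⟨ε, hε, fun t ht j h1 h2 => hh (by simpa [Real.dist_eq] using ht) j (mem_Icc.2 ⟨h1, h2⟩)⟩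
  have hline : ∀ η t, line (fun i => scale β q i + η * i) d t = R (η, t) := fun η t => rfl
  set M := mass k / 2 * β ^ 2 with hM
  have hM0 : 0 < M := by have := massK_pos (k := k); positivity
  -- gain along the line, uniform in `η`
  have hgain : ∀ η ∈ Set.Ioo 0 ρ, spinG k (R (η, t₀)) - spinG k (R (η, 0))
      ≤ M * (t₀ * spinQ k (R (η, 0)) l - (1 + e) * t₀ ^ 2 / 2) := by
    intro η hη
    have hdot : ∀ t, ∑ i ∈ Icc 1 k, d i * spinQ k (R (η, t)) i = -β ^ 2 * spinQ k (R (η, t)) l := fun t => by
      simp [hd, ite_mul, hl, hlk]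
    have hQd : ∀ s ∈ Set.Icc 0 t₀,
        HasDerivAt (fun t => spinQ k (R (η, t)) l) (-β ^ 2 * coef k (R (η, s)) l l 0 0) s := by
      intro s hs
      obtain ⟨ε, hε⟩ := hpos η hη.1 s hs
      have h := deriv_spinW hε hl (Nat.zero_le l) hlk s (by simpa using hε.1) 0
      simp only [hline] at h
      refine h.congr_deriv ?_
      simp [rateW, hd, ite_mul, hl, hlk, show ¬0 = l by omega]
    have hGd : ∀ s ∈ Set.Icc 0 t₀,
        HasDerivAt (fun t => spinG k (R (η, t))) (M * spinQ k (R (η, s)) l) s := by
      intro s hs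
      obtain ⟨ε, hε⟩ := hpos η hη.1 s hs
      have h := deriv_spinG hε d0
      simp only [hline] at h
      refine h.congr_deriv ?_
      rw [hdot, hM]; ring
    have hQle : ∀ s ∈ Set.Icc 0 t₀, spinQ k (R (η, s)) l + (1 + e) * s ≤ spinQ k (R (η, 0)) l := by
      intro s hs
      have hanti : AntitoneOn (fun t => spinQ k (R (η, t)) l + (1 + e) * t) (Set.Icc 0 t₀) := by
        refine antitoneOn_of_hasDerivWithinAt_nonpos (convex_Icc _ _)
          (f' := fun t => -β ^ 2 * coef k (R (η, t)) l l 0 0 + (1 + e) * 1) ?_ ?_ ?_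
        · exact fun t ht => ((hQd t ht).continuousAt.add (continuousAt_id.const_mul _)).continuousWithinAt
        · exact fun t ht => ((hQd t (interior_subset ht)).add
            ((hasDerivAt_id t).const_mul (1 + e))).hasDerivWithinAt
        · intro t ht
          have htI := interior_subset ht
          have := hball (y := (η, t)) (by
            simp only [Prod.dist_eq, Real.dist_eq, Prod.fst_zero, Prod.snd_zero, sub_zero, max_lt_iff,
              abs_of_nonneg htI.1, abs_of_pos hη.1]
            exact ⟨hη.2, by linarith [htI.2, min_le_left (ρ / 2) (q l / 2)]⟩)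
          linarith
      simpa using hanti (Set.left_mem_Icc.2 ht00.le) hs hs.1
    have hanti : AntitoneOn (fun t => spinG k (R (η, t))
        - M * (t * spinQ k (R (η, 0)) l - (1 + e) * t ^ 2 / 2)) (Set.Icc 0 t₀) := by
      have hd' : ∀ t ∈ Set.Icc 0 t₀, HasDerivAt (fun t => spinG k (R (η, t))
          - M * (t * spinQ k (R (η, 0)) l - (1 + e) * t ^ 2 / 2))
          (M * (spinQ k (R (η, t)) l + (1 + e) * t - spinQ k (R (η, 0)) l)) t := fun t ht =>
        ((hGd t ht).fun_sub ((((hasDerivAt_id t).mul_const _).fun_sub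
          ((((hasDerivAt_id t).fun_pow 2).const_mul (1 + e)).div_const 2)).const_mul M)).congr_deriv
          (by simp; ring)
      refine antitoneOn_of_hasDerivWithinAt_nonpos (convex_Icc _ _)
        (fun t ht => (hd' t ht).continuousAt.continuousWithinAt)
        (fun t ht => (hd' t (interior_subset ht)).hasDerivWithinAt) fun t ht => ?_
      exact mul_nonpos_of_nonneg_of_nonpos hM0.le (by linarith [hQle t (interior_subset ht)])
    have := hanti (Set.left_mem_Icc.2 ht00.le) (Set.right_mem_Icc.2 ht00.le) ht00.le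
    simp only [zero_mul, zero_pow two_ne_zero, mul_zero, zero_div, sub_zero] at this
    linarith
  -- the limit `η → 0`
  have hlim : spinG k (R (0, t₀)) - spinG k (scale β q)
      ≤ M * (t₀ * q l - (1 + e) * t₀ ^ 2 / 2) := by
    have hcG : ∀ t, Continuous fun η => spinG k (R (η, t)) := fun t =>
      continuous_spinG'.comp (hRc.comp (continuous_id.prodMk continuous_const))
    have hcQ : Continuous fun η => spinQ k (R (η, 0)) l :=
      (continuous_spinQ hlk).comp (hRc.comp (continuous_id.prodMk continuous_const))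
    have h := le_of_tendsto_of_tendsto
      ((((hcG t₀).sub (hcG 0)).tendsto 0).mono_left (nhdsWithin_le_nhds (s := Set.Ioi 0)))
      (((continuous_const (y := M)).mul (((continuous_const (y := t₀)).mul hcQ).sub
        (continuous_const (y := (1 + e) * t₀ ^ 2 / 2)))).tendsto 0 |>.mono_left nhdsWithin_le_nhds)
      ((eventually_mem_nhdsWithin.and (eventually_nhdsWithin_of_eventually_nhds
        (Iio_mem_nhds hρ))).mono fun η hη => hgain η ⟨hη.1, hη.2⟩)
    simp only [Pi.sub_apply, Pi.mul_apply,
      show ((0 : ℝ), (0 : ℝ)) = 0 from rfl, hR0,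
      (IsMinPath.overlap ⟨hq, hmin⟩ hβ) l (mem_Icc.2 ⟨hl, hlk⟩)] at h
    exact h
  set p : ℕ → ℝ := fun i => if i = l then q l - t₀ else q i with hp
  have hpath : IsPath k p := by
    have h2 : t₀ ≤ q l := by linarith [min_le_right (ρ / 2) (q l / 2)]
    refine ⟨by simp [hp, show ¬0 = l by omega, hq.1], fun j hj => ?_, ?_⟩
    · simp only [hp]
      by_cases hj1 : j = l
      · subst hj1; simp only [if_true, show ¬j + 1 = j by omega, if_false]; linarith [hq.2.1 j hj]
      · by_cases hj2 : j + 1 = l
        · simp only [hj1, hj2, if_false, if_true, hlo j (by omega)]; linarith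
        · simp only [hj1, hj2, if_false]; exact hq.2.1 j hj
    · simp only [hp]; split_ifs with hkl
      · subst hkl; linarith [hq.2.2]
      · exact hq.2.2
  have hm := hmin p hpath fun i hi => by simp [hp, show ¬i = l by omega]
  have er : scale β p = R (0, t₀) := by
    funext i; simp only [hR, hp, scale, hd]
    split_ifs with hi <;> [subst hi; skip] <;> ring
  have es : ∑ i ∈ Icc 1 k, p i ^ 2 = ∑ i ∈ Icc 1 k, q i ^ 2 + (t₀ ^ 2 - 2 * t₀ * q l) := by
    have : ∀ i, p i ^ 2 = q i ^ 2 + if i = l then t₀ ^ 2 - 2 * t₀ * q l else 0 := fun i => by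
      simp only [hp]; split_ifs with hi <;> [subst hi; skip] <;> ring
    simp [this, sum_add_distrib, hl, hlk]
  simp only [parisiP, er, es] at hm
  have := mul_pos (mul_pos hM0 he0) (pow_pos ht00 2)
  simp only [hM] at hlim this
  linarith

end Vale.Agent.P146
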