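import Mathlib

/-!
# P146: the third Hermite gap for functions with vanishing first coefficient

An odd function orthogonal to `y` in the Gaussian law has Dirichlet form at least three times
its square norm. Picone's identity against `y ^ 3 - 3 y` on the intervals between its zeros,
after subtracting the multiple of `y` that makes the function vanish at `√3`.
-/

open MeasureTheory Real Filter Topology Set

namespace Vale.Agent.P146

/-- The unnormalised Gaussian density. -/
noncomputable def gk (y : ℝ) : ℝ := exp (-(y ^ 2) / 2)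

theorem gk_pos (y : ℝ) : 0 < gk y := exp_pos _

theorem continuous_gk : Continuous gk := by unfold gk; fun_prop

theorem hasDerivAt_gk (y : ℝ) : HasDerivAt gk (-y * gk y) y := by
  have h : HasDerivAt (fun z : ℝ => -(z ^ 2) / 2) (-y) y :=
    ((hasDerivAt_pow 2 y).neg.div_const 2).congr_deriv (by simp; ring)
  exact h.exp.congr_deriv (by unfold gk; ring)

private noncomputable def pic (p : ℝ → ℝ) (y : ℝ) : ℝ :=
  gk y * (p y ^ 2 / (y ^ 3 - 3 * y) * (3 * y ^ 2 - 3))

private theorem cubic_hasDeriv (y : ℝ) :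
    HasDerivAt (fun z : ℝ => z ^ 3 - 3 * z) (3 * y ^ 2 - 3) y :=
  ((hasDerivAt_pow 3 y).sub ((hasDerivAt_id y).const_mul (3 : ℝ))).congr_deriv (by simp)

private theorem cubic_root {y : ℝ} (h : y ^ 3 - 3 * y = 0) :
    y = 0 ∨ y = √3 ∨ y = -√3 := by
  have h' : y * (y - √3) * (y + √3) = 0 := by
    have := sq_sqrt (show (0 : ℝ) ≤ 3 by norm_num)
    linear_combination h - y * this
  rcases mul_eq_zero.1 h' with h' | h'
  · rcases mul_eq_zero.1 h' with h' | h'
    · exact Or.inl h'
    · exact Or.inr (Or.inl (by linarith))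
  · exact Or.inr (Or.inr (by linarith))

/-- Picone: a function vanishing at the zeros of `y ^ 3 - 3 y`. -/
theorem picone_three {p p' : ℝ → ℝ} (hd : ∀ y, HasDerivAt p (p' y) y)
    (h0 : p 0 = 0) (h3 : p (√3) = 0) (h3' : p (-√3) = 0)
    (hi : Integrable fun y => (p' y ^ 2 - 3 * p y ^ 2) * gk y) :
    0 ≤ ∫ y, (p' y ^ 2 - 3 * p y ^ 2) * gk y := by
  have h3s : √(3 : ℝ) ^ 2 = 3 := sq_sqrt (by norm_num)
  have hs0 : (0 : ℝ) < √3 := by positivity
  have hroot : ∀ y : ℝ, y ^ 3 - 3 * y = 0 → p y = 0 ∧ 3 * y ^ 2 - 3 ≠ 0 := by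
    intro y hy
    rcases cubic_root hy with rfl | rfl | rfl
    · exact ⟨h0, by norm_num⟩
    · exact ⟨h3, by rw [h3s]; norm_num⟩
    · exact ⟨h3', by rw [neg_sq, h3s]; norm_num⟩
  have hpc : Continuous p := continuous_iff_continuousAt.2 fun y => (hd y).continuousAt
  have hder : ∀ y, y ^ 3 - 3 * y ≠ 0 → ∃ r, HasDerivAt (pic p) r y ∧
      r ≤ (p' y ^ 2 - 3 * p y ^ 2) * gk y := by
    intro y hy
    have h2 : HasDerivAt (fun z : ℝ => 3 * z ^ 2 - 3) (6 * y) y :=
      (((hasDerivAt_pow 2 y).const_mul (3 : ℝ)).sub_const 3).congr_deriv (by simp; ring)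
    have h := (hasDerivAt_gk y).mul ((((hd y).fun_pow 2).div (cubic_hasDeriv y) hy).mul h2)
    refine ⟨_, h, ?_⟩
    have key : 0 ≤ gk y * (p' y - p y * (3 * y ^ 2 - 3) / (y ^ 3 - 3 * y)) ^ 2 :=
      mul_nonneg (gk_pos y).le (sq_nonneg _)
    refine le_of_sub_nonneg (key.trans_eq ?_)
    simp only [Pi.mul_apply, Pi.div_apply, Nat.cast_ofNat, Nat.add_one_sub_one, pow_one]
    obtain ⟨q, hq⟩ : ∃ q, q = y ^ 3 - 3 * y := ⟨_, rfl⟩
    rw [← hq] at hy ⊢
    field_simp
    rw [hq]
    ring
  have hcont : Continuous (pic p) := continuous_iff_continuousAt.2 fun y => by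
    by_cases hy : y ^ 3 - 3 * y = 0
    · obtain ⟨hp, hq⟩ := hroot y hy
      have hlim : Tendsto (fun z => p z ^ 2 / (z ^ 3 - 3 * z)) (𝓝[≠] y) (𝓝 0) := by
        have h1 := hasDerivAt_iff_tendsto_slope.1 (hd y)
        have h2 := hasDerivAt_iff_tendsto_slope.1 (cubic_hasDeriv y)
        have h4 := ((hpc.tendsto y).mono_left nhdsWithin_le_nhds).mul (h1.div h2 hq)
        rw [hp, zero_mul] at h4
        refine h4.congr' (eventually_nhdsWithin_of_forall fun z hz => ?_)
        have hz' : z - y ≠ 0 := sub_ne_zero.2 hz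
        simp only [Pi.div_apply, slope_def_field, hp, hy, sub_zero]
        field_simp
      have h5 : Tendsto (pic p) (𝓝[≠] y) (𝓝 (gk y * (0 * (3 * y ^ 2 - 3)))) :=
        ((continuous_gk.tendsto y).mono_left nhdsWithin_le_nhds).mul
          (hlim.mul (((by fun_prop : Continuous fun z : ℝ => 3 * z ^ 2 - 3).tendsto y).mono_left
            nhdsWithin_le_nhds))
      refine continuousWithinAt_compl_self.1 ?_
      have : pic p y = gk y * (0 * (3 * y ^ 2 - 3)) := by simp [pic, hy]
      unfold ContinuousWithinAt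
      rw [this]
      exact h5
    · obtain ⟨r, hr, -⟩ := hder y hy
      exact hr.continuousAt
  have key : ∀ a b : ℝ, a ≤ b → (∀ y ∈ Ioo a b, y ^ 3 - 3 * y ≠ 0) →
      pic p b - pic p a ≤ ∫ y in a..b, (p' y ^ 2 - 3 * p y ^ 2) * gk y := by
    intro a b hab hne
    choose! r hr1 hr2 using fun y (hy : y ∈ Ioo a b) => hder y (hne y hy)
    exact intervalIntegral.sub_le_integral_of_hasDeriv_right_of_le hab hcont.continuousOn
      (fun y hy => (hr1 y hy).hasDerivWithinAt) hi.integrableOn hr2
  have z0 : pic p 0 = 0 := by simp [pic]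
  have z3 : pic p (√3) = 0 := by simp [pic, h3]
  have z3' : pic p (-√3) = 0 := by simp [pic, h3']
  have hfac : ∀ y : ℝ, y ^ 3 - 3 * y = y * ((y - √3) * (y + √3)) := fun y => by
    linear_combination y * h3s
  have hT : ∀ T : ℝ, √3 < T → 0 ≤ ∫ y in (-T)..T, (p' y ^ 2 - 3 * p y ^ 2) * gk y := by
    intro T hT
    have hI : ∀ a b, IntervalIntegrable (fun y => (p' y ^ 2 - 3 * p y ^ 2) * gk y) volume a b :=
      fun a b => hi.intervalIntegrable
    have k1 := key (-T) (-√3) (by linarith) fun y hy => by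
      rw [hfac]; exact mul_ne_zero (by linarith [hy.2]) (mul_ne_zero (by linarith [hy.2]) (by linarith [hy.2]))
    have k2 := key (-√3) 0 (by linarith) fun y hy => by
      rw [hfac]; exact mul_ne_zero (by linarith [hy.2]) (mul_ne_zero (by linarith [hy.2]) (by linarith [hy.1]))
    have k3 := key 0 (√3) hs0.le fun y hy => by
      rw [hfac]; exact mul_ne_zero (by linarith [hy.1]) (mul_ne_zero (by linarith [hy.2]) (by linarith [hy.1]))
    have k4 := key (√3) T hT.le fun y hy => by
      rw [hfac]; exact mul_ne_zero (by linarith [hy.1]) (mul_ne_zero (by linarith [hy.1]) (by linarith [hy.1]))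
    have hden : 0 < T ^ 3 - 3 * T := by
      rw [hfac]; exact mul_pos (by linarith) (mul_pos (by linarith) (by linarith))
    have hnum : 0 ≤ 3 * T ^ 2 - 3 := by nlinarith [mul_pos (sub_pos.2 hT) hs0, h3s]
    have p1 : 0 ≤ pic p T :=
      mul_nonneg (gk_pos T).le (mul_nonneg (div_nonneg (sq_nonneg _) hden.le) hnum)
    have p2 : pic p (-T) ≤ 0 := by
      have : pic p (-T) = -(gk (-T) * (p (-T) ^ 2 / (T ^ 3 - 3 * T) * (3 * T ^ 2 - 3))) := by
        unfold pic
        rw [show (-T) ^ 3 - 3 * -T = -(T ^ 3 - 3 * T) by ring, neg_sq, div_neg]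
        ring
      rw [this]
      have := mul_nonneg (gk_pos (-T)).le
        (mul_nonneg (div_nonneg (sq_nonneg (p (-T))) hden.le) hnum)
      linarith
    rw [← intervalIntegral.integral_add_adjacent_intervals (hI (-T) 0) (hI 0 T),
      ← intervalIntegral.integral_add_adjacent_intervals (hI (-T) (-√3)) (hI (-√3) 0),
      ← intervalIntegral.integral_add_adjacent_intervals (hI 0 (√3)) (hI (√3) T)]
    linarith
  exact ge_of_tendsto (intervalIntegral_tendsto_integral hi tendsto_neg_atTop_atBot tendsto_id)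
    ((eventually_gt_atTop (√3)).mono fun T h => hT T h)

/-- The gap three for odd functions without first coefficient. -/
theorem hermite_three {p p' : ℝ → ℝ} (hd : ∀ y, HasDerivAt p (p' y) y)
    (hodd : ∀ y, p (-y) = -p y) (hA : Integrable fun y => p y ^ 2 * gk y)
    (hB : Integrable fun y => p' y ^ 2 * gk y) (h1 : Integrable fun y => y * p y * gk y)
    (h1' : Integrable fun y => p' y * gk y) (hz : ∫ y, y * p y * gk y = 0)
    (hz' : ∫ y, p' y * gk y = 0) :
    3 * ∫ y, p y ^ 2 * gk y ≤ ∫ y, p' y ^ 2 * gk y := by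
  obtain ⟨c, hc⟩ : ∃ c, c = p (√3) / √3 := ⟨_, rfl⟩
  have hs0 : (0 : ℝ) < √3 := by positivity
  have hp0 : p 0 = 0 := by have := hodd 0; rw [neg_zero] at this; linarith
  have hg : Integrable gk :=
    (integrable_exp_neg_mul_sq (show (0 : ℝ) < 1 / 2 by norm_num)).congr
      (Eventually.of_forall fun y => by unfold gk; ring_nf)
  have hy : Integrable fun y => y * gk y :=
    (integrable_mul_exp_neg_mul_sq (show (0 : ℝ) < 1 / 2 by norm_num)).congr
      (Eventually.of_forall fun y => by unfold gk; ring_nf)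
  have hy2 : Integrable fun y => y ^ 2 * gk y :=
    (integrable_rpow_mul_exp_neg_mul_sq (show (0 : ℝ) < 1 / 2 by norm_num)
      (show (-1 : ℝ) < (2 : ℕ) by norm_num)).congr
      (Eventually.of_forall fun y => by simp only [rpow_natCast]; unfold gk; congr 2; ring)
  have hmom : ∫ y, y ^ 2 * gk y = ∫ y, gk y := by
    have h := integral_eq_zero_of_hasDerivAt_of_integrable (f := fun y => y * gk y)
      (f' := fun y => gk y - y ^ 2 * gk y)
      (fun y => ((hasDerivAt_id y).mul (hasDerivAt_gk y)).congr_deriv (by simp; ring))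
      (hg.sub hy2) hy
    rw [integral_sub hg hy2] at h
    linarith
  have i5 := hg.const_mul (c ^ 2)
  have i6 := hy2.const_mul (3 * c ^ 2)
  have i3 := h1'.const_mul (2 * c)
  have i4 := h1.const_mul (6 * c)
  have e : (fun y => ((p' y - c) ^ 2 - 3 * (p y - c * y) ^ 2) * gk y) = fun y =>
      p' y ^ 2 * gk y - 3 * (p y ^ 2 * gk y) - 2 * c * (p' y * gk y) +
        6 * c * (y * p y * gk y) + c ^ 2 * gk y - 3 * c ^ 2 * (y ^ 2 * gk y) := by
    funext y; ring
  have j1 : Integrable fun y => p' y ^ 2 * gk y - 3 * (p y ^ 2 * gk y) := hB.sub (hA.const_mul 3)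
  have j2 : Integrable fun y => p' y ^ 2 * gk y - 3 * (p y ^ 2 * gk y) - 2 * c * (p' y * gk y) :=
    j1.sub i3
  have j3 : Integrable fun y => p' y ^ 2 * gk y - 3 * (p y ^ 2 * gk y) - 2 * c * (p' y * gk y) +
        6 * c * (y * p y * gk y) := j2.add i4
  have j4 : Integrable fun y => p' y ^ 2 * gk y - 3 * (p y ^ 2 * gk y) - 2 * c * (p' y * gk y) +
        6 * c * (y * p y * gk y) + c ^ 2 * gk y := j3.add i5
  have h := picone_three (p := fun y => p y - c * y) (p' := fun y => p' y - c)
    (fun y => ((hd y).sub ((hasDerivAt_id y).const_mul c)).congr_deriv (by simp))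
    (by simp [hp0]) (by rw [hc]; field_simp; ring) (by rw [hc, hodd]; field_simp; ring)
    (by rw [e]; exact j4.sub i6)
  rw [e, integral_sub j4 i6, integral_add j3 i5, integral_add j2 i4, integral_sub j1 i3,
    integral_sub hB (hA.const_mul 3), integral_const_mul, integral_const_mul, integral_const_mul,
    integral_const_mul, integral_const_mul, hz, hz', hmom] at h
  have := mul_nonneg (sq_nonneg c) (integral_nonneg (μ := volume) (f := gk) fun y => (gk_pos y).le)
  linarith

end Vale.Agent.P146
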