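import Vale.Agent.P146.MargHermite
import Vale.Agent.P146.MargPins

/-!
# P146: tilted Gaussian averages of functions of exponential growth

Linearity, integration by parts and association for `gTilt`.
-/

open MeasureTheory ProbabilityTheory Real Filter

namespace Vale.Agent.P146

/-- Continuous, with at most exponential growth. -/
def ExpGrow (f : ℝ → ℝ) : Prop :=
  Continuous f ∧ ∃ K a : ℝ, 0 ≤ a ∧ ∀ y, |f y| ≤ K * exp (a * |y|)

namespace ExpGrow

theorem bdd {f : ℝ → ℝ} (hc : Continuous f) {C : ℝ} (h : ∀ y, |f y| ≤ C) : ExpGrow f :=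
  ⟨hc, C, 0, le_rfl, fun y => by simpa using h y⟩

theorem const (c : ℝ) : ExpGrow fun _ => c := bdd continuous_const (C := |c|) fun _ => le_rfl

theorem id : ExpGrow fun y => y :=
  ⟨continuous_id, 1, 1, zero_le_one, fun y => by
    rw [one_mul, one_mul]; exact (le_add_of_nonneg_right zero_le_one).trans (add_one_le_exp _)⟩

theorem add {f g : ℝ → ℝ} (hf : ExpGrow f) (hg : ExpGrow g) : ExpGrow fun y => f y + g y := by
  obtain ⟨hfc, K, a, ha, hf⟩ := hf
  obtain ⟨hgc, L, b, hb, hg⟩ := hg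
  have hK : 0 ≤ K := by simpa using (abs_nonneg (f 0)).trans (hf 0)
  have hL : 0 ≤ L := by simpa using (abs_nonneg (g 0)).trans (hg 0)
  refine ⟨hfc.add hgc, K + L, a + b, add_nonneg ha hb, fun y => (abs_add_le _ _).trans ?_⟩
  have e1 : exp (a * |y|) ≤ exp ((a + b) * |y|) :=
    exp_le_exp.2 (mul_le_mul_of_nonneg_right (by linarith) (abs_nonneg y))
  have e2 : exp (b * |y|) ≤ exp ((a + b) * |y|) :=
    exp_le_exp.2 (mul_le_mul_of_nonneg_right (by linarith) (abs_nonneg y))
  rw [add_mul]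
  exact add_le_add ((hf y).trans (mul_le_mul_of_nonneg_left e1 hK))
    ((hg y).trans (mul_le_mul_of_nonneg_left e2 hL))

theorem mul {f g : ℝ → ℝ} (hf : ExpGrow f) (hg : ExpGrow g) : ExpGrow fun y => f y * g y := by
  obtain ⟨hfc, K, a, ha, hf⟩ := hf
  obtain ⟨hgc, L, b, hb, hg⟩ := hg
  refine ⟨hfc.mul hgc, K * L, a + b, add_nonneg ha hb, fun y => ?_⟩
  rw [abs_mul]
  refine (mul_le_mul (hf y) (hg y) (abs_nonneg _) ((abs_nonneg _).trans (hf y))).trans_eq ?_
  rw [add_mul, exp_add]; ring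

theorem sub {f g : ℝ → ℝ} (hf : ExpGrow f) (hg : ExpGrow g) : ExpGrow fun y => f y - g y := by
  simpa [sub_eq_add_neg] using hf.add ((const (-1)).mul hg)

theorem pow {f : ℝ → ℝ} (hf : ExpGrow f) (k : ℕ) : ExpGrow fun y => f y ^ k := by
  induction k with
  | zero => simpa using const 1
  | succ k ih => simpa [pow_succ] using ih.mul hf

theorem integrable {f : ℝ → ℝ} (hf : ExpGrow f) : Integrable fun y => f y * gk y := by
  obtain ⟨hfc, K, a, ha, hf⟩ := hf
  refine ((integrable_exp_neg_mul_sq (show (0 : ℝ) < 1 / 4 by norm_num)).const_mul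
    (K * exp (a ^ 2))).mono' (hfc.mul continuous_gk).aestronglyMeasurable
    (Eventually.of_forall fun y => ?_)
  have hK : 0 ≤ K := by simpa using (abs_nonneg (f 0)).trans (hf 0)
  rw [norm_mul, norm_eq_abs, norm_eq_abs, abs_of_pos (gk_pos y)]
  refine (mul_le_mul_of_nonneg_right (hf y) (gk_pos y).le).trans ?_
  unfold gk
  rw [mul_assoc, ← exp_add, mul_assoc, ← exp_add]
  refine mul_le_mul_of_nonneg_left (exp_le_exp.2 ?_) hK
  nlinarith [sq_nonneg (a - |y| / 2), sq_abs y]

end ExpGrow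

/-- The potential of a tilt. -/
structure Pot1 (u F : ℝ → ℝ) (C : ℝ) : Prop where
  hF : ∀ y, HasDerivAt F (u y) y
  hC : ∀ y, |u y| ≤ C

variable {u F : ℝ → ℝ} {C lam : ℝ}

theorem Pot1.exp_grow (h : Pot1 u F C) (lam : ℝ) : ExpGrow fun y => exp (lam * F y) := by
  have hc : Continuous F := continuous_iff_continuousAt.2 fun y => (h.hF y).continuousAt
  have hC0 : 0 ≤ C := (abs_nonneg _).trans (h.hC 0)
  refine ⟨by fun_prop, exp (|lam| * |F 0|), |lam| * C, by positivity, fun y => ?_⟩
  rw [abs_exp, ← exp_add]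
  refine exp_le_exp.2 ((le_abs_self _).trans ?_)
  have h1 : |F y - F 0| ≤ C * |y - 0| := by
    simpa [norm_eq_abs] using convex_univ.norm_image_sub_le_of_norm_hasDerivWithin_le
      (fun x _ => (h.hF x).hasDerivWithinAt) (fun x _ => by rw [norm_eq_abs]; exact h.hC x)
      (Set.mem_univ (0 : ℝ)) (Set.mem_univ y)
  rw [sub_zero] at h1
  rw [abs_mul, mul_assoc, ← mul_add]
  refine mul_le_mul_of_nonneg_left ?_ (abs_nonneg _)
  calc |F y| = |F 0 + (F y - F 0)| := by ring_nf
    _ ≤ |F 0| + C * |y| := (abs_add_le _ _).trans (by linarith)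

/-- The tilted integral against the unnormalised density. -/
noncomputable def tiltL (lam : ℝ) (F f : ℝ → ℝ) : ℝ := ∫ y, f y * (exp (lam * F y) * gk y)

theorem tilt_integrable (h : Pot1 u F C) (lam : ℝ) {f : ℝ → ℝ} (hf : ExpGrow f) :
    Integrable fun y => f y * (exp (lam * F y) * gk y) :=
  (hf.mul (h.exp_grow lam)).integrable.congr (Eventually.of_forall fun _ => mul_assoc _ _ _)

theorem tiltL_one_pos (h : Pot1 u F C) (lam : ℝ) : 0 < tiltL lam F fun _ => 1 := by
  refine (integral_pos_iff_support_of_nonneg (fun y => ?_) (tilt_integrable h lam (.const 1))).2 ?_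
  · have := gk_pos y; positivity
  · rw [show (Function.support fun y => (1 : ℝ) * (exp (lam * F y) * gk y)) = Set.univ from
      Set.eq_univ_of_forall fun y => by have := gk_pos y; simp only [Function.mem_support]; positivity]
    simp

theorem gTilt_eq (f : ℝ → ℝ) (lam : ℝ) (F : ℝ → ℝ) :
    gTilt lam F f = tiltL lam F f / tiltL lam F fun _ => 1 := by
  have key : ∀ g : ℝ → ℝ, ∫ y, g y ∂gaussianReal 0 1 = (√(2 * π))⁻¹ * ∫ y, g y * gk y := by
    intro g
    rw [integral_gaussianReal_eq_integral_smul one_ne_zero, ← integral_const_mul]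
    refine integral_congr_ae (Eventually.of_forall fun y => ?_)
    simp only [gaussianPDFReal, gk, NNReal.coe_one, mul_one, smul_eq_mul, sub_zero]
    ring
  unfold gTilt tiltL
  rw [key, key, mul_div_mul_left _ _ (by positivity)]
  simp only [mul_assoc, one_mul]

theorem gTilt_congr {f g : ℝ → ℝ} (hfg : ∀ y, f y = g y) : gTilt lam F f = gTilt lam F g := by
  rw [funext hfg]

theorem gTilt_one (h : Pot1 u F C) : gTilt lam F (fun _ => 1) = 1 := by
  rw [gTilt_eq, div_self (tiltL_one_pos h lam).ne']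

theorem gTilt_mul (c : ℝ) (f : ℝ → ℝ) :
    gTilt lam F (fun y => c * f y) = c * gTilt lam F f := by
  rw [gTilt_eq, gTilt_eq, mul_div_assoc']
  congr 1
  unfold tiltL
  rw [← integral_const_mul]
  simp only [mul_assoc]

theorem gTilt_add (h : Pot1 u F C) {f g : ℝ → ℝ} (hf : ExpGrow f) (hg : ExpGrow g) :
    gTilt lam F (fun y => f y + g y) = gTilt lam F f + gTilt lam F g := by
  rw [gTilt_eq, gTilt_eq, gTilt_eq, ← add_div]
  congr 1
  unfold tiltL
  simp only [add_mul]
  exact integral_add (tilt_integrable h lam hf) (tilt_integrable h lam hg)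

theorem gTilt_mono (h : Pot1 u F C) {f g : ℝ → ℝ} (hf : ExpGrow f) (hg : ExpGrow g)
    (hfg : ∀ y, f y ≤ g y) : gTilt lam F f ≤ gTilt lam F g := by
  rw [gTilt_eq, gTilt_eq]
  exact div_le_div_of_nonneg_right (integral_mono (tilt_integrable h lam hf)
    (tilt_integrable h lam hg) fun y => mul_le_mul_of_nonneg_right (hfg y)
      (mul_nonneg (exp_pos _).le (gk_pos y).le)) (tiltL_one_pos h lam).le

theorem gTilt_nonneg (h : Pot1 u F C) {f : ℝ → ℝ} (hf : ExpGrow f) (h0 : ∀ y, 0 ≤ f y) :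
    0 ≤ gTilt lam F f := by
  simpa [gTilt] using gTilt_mono (lam := lam) h (.const 0) hf h0

theorem tiltL_ibp (h : Pot1 u F C) {p p' : ℝ → ℝ} (hd : ∀ y, HasDerivAt p (p' y) y)
    (hp : ExpGrow p) (hp' : ExpGrow p') (hu : Continuous u) :
    tiltL lam F (fun y => p' y - p y * (y - lam * u y)) = 0 := by
  refine integral_eq_zero_of_hasDerivAt_of_integrable
    (f := fun y => p y * (exp (lam * F y) * gk y)) (fun y => ?_)
    (tilt_integrable h lam (hp'.sub (hp.mul (ExpGrow.id.sub
      ((ExpGrow.const lam).mul (ExpGrow.bdd hu h.hC)))))) (tilt_integrable h lam hp)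
  exact ((hd y).mul (((h.hF y).const_mul lam).exp.mul (hasDerivAt_gk y))).congr_deriv
    (by simp only [Pi.mul_apply]; ring)

theorem gTilt_ibp (h : Pot1 u F C) {p p' : ℝ → ℝ} (hd : ∀ y, HasDerivAt p (p' y) y)
    (hp : ExpGrow p) (hp' : ExpGrow p') (hu : Continuous u) :
    gTilt lam F p' = gTilt lam F (fun y => y * p y) - lam * gTilt lam F fun y => u y * p y := by
  have h0 : gTilt lam F (fun y => p' y - p y * (y - lam * u y)) = 0 := by
    rw [gTilt_eq, tiltL_ibp h hd hp hp' hu, zero_div]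
  have hU := ExpGrow.bdd hu h.hC
  have e : gTilt lam F (fun y => y * p y) =
      gTilt lam F (fun y => p' y + lam * (u y * p y)) - 0 := by
    rw [← h0, eq_sub_iff_add_eq, ← gTilt_add h (ExpGrow.id.mul hp)
      (hp'.sub (hp.mul (ExpGrow.id.sub ((ExpGrow.const lam).mul hU))))]
    exact gTilt_congr fun y => by ring
  rw [sub_zero, gTilt_add h hp' ((ExpGrow.const lam).mul (hU.mul hp)), gTilt_mul] at e
  linarith

/-- Association: a symmetrised pointwise inequality gives one between products of means. -/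
theorem gTilt_assoc (h : Pot1 u F C) {f1 f2 f3 f4 : ℝ → ℝ} (g1 : ExpGrow f1) (g2 : ExpGrow f2)
    (g3 : ExpGrow f3) (g4 : ExpGrow f4)
    (hp : ∀ x z, f1 x * f2 z + f1 z * f2 x ≤ f3 x * f4 z + f3 z * f4 x) :
    gTilt lam F f1 * gTilt lam F f2 ≤ gTilt lam F f3 * gTilt lam F f4 := by
  have h1 : ∀ z, gTilt lam F f1 * f2 z + f1 z * gTilt lam F f2 ≤
      gTilt lam F f3 * f4 z + f3 z * gTilt lam F f4 := fun z => by
    have := gTilt_mono (lam := lam) h (((ExpGrow.const (f2 z)).mul g1).add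
      ((ExpGrow.const (f1 z)).mul g2)) (((ExpGrow.const (f4 z)).mul g3).add
      ((ExpGrow.const (f3 z)).mul g4)) fun x => by linarith [hp x z]
    rw [gTilt_add h ((ExpGrow.const _).mul g1) ((ExpGrow.const _).mul g2),
      gTilt_add h ((ExpGrow.const _).mul g3) ((ExpGrow.const _).mul g4),
      gTilt_mul, gTilt_mul, gTilt_mul, gTilt_mul] at this
    linarith
  have := gTilt_mono (lam := lam) h (((ExpGrow.const (gTilt lam F f1)).mul g2).add
      ((ExpGrow.const (gTilt lam F f2)).mul g1)) (((ExpGrow.const (gTilt lam F f3)).mul g4).add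
      ((ExpGrow.const (gTilt lam F f4)).mul g3)) fun z => by linarith [h1 z]
  rw [gTilt_add h ((ExpGrow.const _).mul g2) ((ExpGrow.const _).mul g1),
    gTilt_add h ((ExpGrow.const _).mul g4) ((ExpGrow.const _).mul g3),
    gTilt_mul, gTilt_mul, gTilt_mul, gTilt_mul] at this
  linarith

end Vale.Agent.P146
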