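import Mathlib.Analysis.SpecialFunctions.Trigonometric.Chebyshev.Basic
import Vale.Agent.P146.Pins

/-!
# P146: the semicircle law

Its Chebyshev moments, its transforms at `w + 1/w`, its logarithmic potential, and the positivity of
the harmonically weighted sum of Chebyshev polynomials on `[-2, 2]` (Fejér and Jackson).
-/

open MeasureTheory Real Filter Topology Finset Polynomial
open Vale.Agent.P166 (IsTopEdge)

namespace Vale.Agent.P146

theorem measurable_two_cos : Measurable fun θ : ℝ => 2 * cos θ := by fun_prop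

theorem integral_semi_meas {g : ℝ → ℝ} (hg : Measurable g) :
    ∫ t, g t ∂semi = ∫ θ in (0 : ℝ)..π, 2 / π * sin θ ^ 2 * g (2 * cos θ) := by
  rw [semi, integral_map measurable_two_cos.aemeasurable hg.aestronglyMeasurable,
    integral_withDensity_eq_integral_toReal_smul (by fun_prop) (ae_of_all _ fun _ => ENNReal.ofReal_lt_top),
    intervalIntegral.integral_of_le pi_nonneg]
  refine integral_congr_ae (ae_of_all _ fun θ => ?_)
  simp only [smul_eq_mul]
  rw [ENNReal.toReal_ofReal (by positivity)]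

instance isProbabilityMeasure_semi : IsProbabilityMeasure semi := by
  refine ⟨?_⟩
  rw [semi, Measure.map_apply measurable_two_cos MeasurableSet.univ, Set.preimage_univ,
    withDensity_apply _ MeasurableSet.univ, Measure.restrict_univ,
    ← ofReal_integral_eq_lintegral_ofReal
      (Continuous.integrableOn_Ioc (by fun_prop)) (ae_of_all _ fun θ => by positivity),
    ← intervalIntegral.integral_of_le pi_nonneg, intervalIntegral.integral_const_mul, integral_sin_sq]
  simp only [sin_zero, sin_pi, zero_mul, sub_zero, zero_add]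
  rw [show 2 / π * (π / 2) = 1 by field_simp, ENNReal.ofReal_one]

theorem ae_semi : ∀ᵐ t ∂semi, t ∈ Set.Icc (-2 : ℝ) 2 := by
  rw [semi]
  refine (ae_map_iff measurable_two_cos.aemeasurable measurableSet_Icc).2 (ae_of_all _ fun θ => ?_)
  constructor <;> linarith [neg_one_le_cos θ, cos_le_one θ]

theorem semi_Iio : semi (Set.Iio (-2)) = 0 :=
  measure_eq_zero_iff_ae_notMem.2 (ae_semi.mono fun _ ht => not_lt.2 ht.1)

theorem isTopEdge_semi : IsTopEdge semi 2 := by
  refine ⟨measure_eq_zero_iff_ae_notMem.2 (ae_semi.mono fun t ht => not_lt.2 ht.2), fun ε hε => ?_⟩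
  rw [semi, Measure.map_apply measurable_two_cos measurableSet_Ioi, pos_iff_ne_zero, Ne,
    withDensity_apply_eq_zero (by fun_prop)]
  obtain ⟨δ, hδ, hball⟩ := Metric.continuous_iff.1 (by fun_prop : Continuous fun θ : ℝ => 2 * cos θ) 0 ε hε
  have hpos : 0 < volume.restrict (Set.Ioc 0 π) (Set.Ioo 0 (min δ π)) := by
    rw [Measure.restrict_apply measurableSet_Ioo, Set.inter_eq_left.2 fun θ hθ =>
      (show θ ∈ Set.Ioc 0 π from ⟨hθ.1, (hθ.2.trans_le (min_le_right _ _)).le⟩), Real.volume_Ioo, ENNReal.ofReal_pos, sub_zero]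
    exact lt_min hδ pi_pos
  refine (hpos.trans_le (measure_mono fun θ hθ => ?_)).ne'
  have hπ : θ < π := hθ.2.trans_le (min_le_right _ _)
  refine Set.mem_inter ?_ ?_
  · show ENNReal.ofReal (2 / π * sin θ ^ 2) ≠ 0
    have := sin_pos_of_pos_of_lt_pi hθ.1 hπ
    simp only [ne_eq, ENNReal.ofReal_eq_zero, not_le]
    positivity
  · show 2 - ε < 2 * cos θ
    have h := hball θ (by rw [Real.dist_eq, sub_zero, abs_of_pos hθ.1]; exact hθ.2.trans_le (min_le_left _ _))
    rw [Real.dist_eq, cos_zero, mul_one, abs_lt] at h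
    linarith

theorem cheb_zero : cheb 0 = 1 := by simp [cheb]

theorem cheb_one : cheb 1 = X := by simp [cheb]

theorem cheb_succ_succ (a : ℕ) : cheb (a + 2) = X * cheb (a + 1) - cheb a := by
  simp only [cheb]
  push_cast
  exact Polynomial.Chebyshev.S_add_two ℝ _

theorem cheb_eval_two (a : ℕ) : (cheb a).eval 2 = (a : ℝ) + 1 := by simp [cheb]

theorem cheb_sin (a : ℕ) (θ : ℝ) : (cheb a).eval (2 * cos θ) * sin θ = sin (((a : ℝ) + 1) * θ) := by
  simp [cheb]

theorem integral_cos_nat (m : ℕ) :
    ∫ θ in (0 : ℝ)..π, cos ((m : ℝ) * θ) = if m = 0 then π else 0 := by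
  rcases eq_or_ne m 0 with rfl | hm
  · simp
  · rw [if_neg hm, intervalIntegral.integral_comp_mul_left (fun y => cos y) (Nat.cast_ne_zero.2 hm),
      integral_cos, mul_zero, sin_zero, sin_nat_mul_pi, sub_zero, smul_zero]

theorem cheb_moment (a : ℕ) : ∫ t, (cheb a).eval t ∂semi = if a = 0 then 1 else 0 := by
  rw [integral_semi_meas (cheb a).continuous.measurable]
  have e : ∀ θ, 2 / π * sin θ ^ 2 * (cheb a).eval (2 * cos θ)
      = 1 / π * (cos ((a : ℝ) * θ) - cos (((a + 2 : ℕ) : ℝ) * θ)) := fun θ => by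
    have h : cos ((a : ℝ) * θ) - cos (((a + 2 : ℕ) : ℝ) * θ) = 2 * (sin θ * sin (((a : ℝ) + 1) * θ)) := by
      push_cast
      rw [show (a : ℝ) * θ = ((a : ℝ) + 1) * θ - θ by ring,
        show ((a : ℝ) + 2) * θ = ((a : ℝ) + 1) * θ + θ by ring, cos_sub, cos_add]
      ring
    rw [h, ← cheb_sin]
    field_simp
  simp only [e]
  rw [intervalIntegral.integral_const_mul, intervalIntegral.integral_sub
    (Continuous.intervalIntegrable (by fun_prop) _ _) (Continuous.intervalIntegrable (by fun_prop) _ _),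
    integral_cos_nat, integral_cos_nat, if_neg (show a + 2 ≠ 0 by omega), sub_zero]
  split_ifs <;> simp [pi_ne_zero]

theorem abs_sin_mul_le' (m : ℕ) (θ : ℝ) : |sin ((m : ℝ) * θ)| ≤ m * |sin θ| := by
  induction m with
  | zero => simp
  | succ m ih =>
    push_cast
    rw [add_mul, one_mul, sin_add, add_mul, one_mul]
    refine (abs_add_le _ _).trans (add_le_add ?_ ?_)
    · rw [abs_mul]; exact (mul_le_of_le_one_right (abs_nonneg _) (abs_cos_le_one _)).trans ih
    · rw [abs_mul]; exact mul_le_of_le_one_left (abs_nonneg _) (abs_cos_le_one _)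

theorem abs_cheb_le (a : ℕ) {t : ℝ} (ht : t ∈ Set.Icc (-2 : ℝ) 2) : |(cheb a).eval t| ≤ (a : ℝ) + 1 := by
  rcases eq_or_lt_of_le ht.2 with h | h2
  · rw [h, cheb_eval_two, abs_of_nonneg (by positivity)]
  rcases eq_or_lt_of_le ht.1 with h | h1
  · rw [← h]
    simp [cheb, abs_mul, abs_of_nonneg (show (0 : ℝ) ≤ (a : ℝ) + 1 by positivity)]
  set θ := arccos (t / 2) with hθ
  have hc : 2 * cos θ = t := by rw [hθ, cos_arccos (by linarith) (by linarith)]; ring
  have hs : 0 < sin θ := by
    rw [hθ, sin_arccos]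
    exact Real.sqrt_pos.2 (by nlinarith)
  have h := abs_sin_mul_le' (a + 1) θ
  push_cast at h
  rw [← cheb_sin, hc, abs_mul, abs_of_pos hs] at h
  exact le_of_mul_le_mul_right h hs

theorem zOne_gt {w : ℝ} (h0 : 0 < w) (h1 : w < 1) : 2 < w + 1 / w := by
  have e : w + 1 / w - 2 = (1 - w) ^ 2 / w := by field_simp; ring
  have : 0 < (1 - w) ^ 2 / w := div_pos (by nlinarith) h0
  linarith

theorem integrable_div_semi {g : ℝ → ℝ} (hg : Continuous g) {z : ℝ} (hz : 2 < z) :
    Integrable (fun t => g t / (z - t)) semi := by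
  obtain ⟨M, hM⟩ := isCompact_Icc.exists_bound_of_continuousOn (s := Set.Icc (-2 : ℝ) 2) hg.continuousOn
  refine Integrable.of_bound (hg.measurable.div (measurable_id.const_sub z)).aestronglyMeasurable
    (|M| / (z - 2)) (ae_semi.mono fun t ht => ?_)
  rw [norm_eq_abs, abs_div, abs_of_pos (show 0 < z - t by linarith [ht.2])]
  exact div_le_div₀ (abs_nonneg _) ((hM t ht).trans (le_abs_self _)) (by linarith) (by linarith [ht.2])

theorem integrable_semi {g : ℝ → ℝ} (hg : Continuous g) : Integrable g semi := by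
  obtain ⟨M, hM⟩ := isCompact_Icc.exists_bound_of_continuousOn (s := Set.Icc (-2 : ℝ) 2) hg.continuousOn
  exact Integrable.of_bound hg.aestronglyMeasurable M (ae_semi.mono hM)

/-- The transform of a Chebyshev polynomial at `w + 1/w`. -/
theorem cheb_transform {w : ℝ} (h0 : 0 < w) (h1 : w < 1) (a : ℕ) :
    ∫ t, (cheb a).eval t / (w + 1 / w - t) ∂semi = w ^ (a + 1) := by
  set z := w + 1 / w with hz
  have hz2 : 2 < z := zOne_gt h0 h1
  set c : ℕ → ℝ := fun a => ∫ t, (cheb a).eval t / (z - t) ∂semi with hc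
  have hstep : ∀ a, ∫ t, t * (cheb a).eval t / (z - t) ∂semi = z * c a - if a = 0 then 1 else 0 := fun a => by
    rw [← cheb_moment a, hc, ← integral_const_mul, ← integral_sub
      ((integrable_div_semi (cheb a).continuous hz2).const_mul z) (integrable_semi (cheb a).continuous)]
    refine integral_congr_ae (ae_semi.mono fun t ht => ?_)
    have : z - t ≠ 0 := by linarith [ht.2]
    field_simp
    ring
  have hc1 : c 1 = z * c 0 - 1 := by
    simpa [hc, cheb_one, cheb_zero] using hstep 0
  have hrec : ∀ a, c (a + 2) = z * c (a + 1) - c a := fun a => by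
    have h := hstep (a + 1)
    rw [if_neg (Nat.succ_ne_zero a), sub_zero] at h
    simp only [hc, cheb_succ_succ, eval_sub, eval_mul, eval_X, sub_div]
    rw [integral_sub (show Integrable (fun t => t * (cheb (a + 1)).eval t / (z - t)) semi from
        integrable_div_semi (continuous_id.mul (cheb (a + 1)).continuous) hz2)
      (integrable_div_semi (cheb a).continuous hz2)]
    exact congrArg (· - _) h
  set S : ℕ → ℝ := fun a => (cheb a).eval z with hS
  have hS0 : S 0 = 1 := by simp [hS, cheb_zero]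
  have hS1 : S 1 = z := by simp [hS, cheb_one]
  have hSr : ∀ a, S (a + 2) = z * S (a + 1) - S a := fun a => by simp [hS, cheb_succ_succ]
  have hd : ∀ a, c a - w ^ (a + 1) = (c 0 - w) * S a ∧ c (a + 1) - w ^ (a + 2) = (c 0 - w) * S (a + 1) := by
    intro a
    have hw : z * w = w ^ 2 + 1 := by rw [hz]; field_simp
    induction a with
    | zero => exact ⟨by simp [hS0], by rw [hc1, hS1]; linear_combination hw⟩
    | succ a ih =>
      refine ⟨ih.2, ?_⟩
      rw [hrec, hSr]
      linear_combination z * ih.2 - ih.1 + w ^ (a + 1) * hw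
  have hgrow : ∀ a, (w⁻¹) ^ a ≤ S a ∧ S (a + 1) - w⁻¹ * S a = w ^ (a + 1) := by
    intro a
    induction a with
    | zero => exact ⟨by simp [hS0], by rw [hS0, hS1, hz, mul_one, one_div, pow_one]; ring⟩
    | succ a ih =>
      refine ⟨?_, ?_⟩
      · have h := mul_le_mul_of_nonneg_left ih.1 (inv_nonneg.2 h0.le)
        rw [← pow_succ'] at h
        linarith [ih.2, pow_pos h0 (a + 1)]
      · have e : S (a + 2) = w⁻¹ * S (a + 1) + w * (S (a + 1) - w⁻¹ * S a) := by
          rw [hSr, hz]; field_simp; ring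
        rw [e, ih.2]; ring
  have hbd : ∀ a, |c a| ≤ ((a : ℝ) + 1) / (z - 2) := fun a => by
    simp only [hc]
    refine abs_integral_le_integral_abs.trans ((integral_mono_ae (integrable_div_semi (cheb a).continuous hz2).abs
      (integrable_const (((a : ℝ) + 1) / (z - 2))) (ae_semi.mono fun t ht => ?_)).trans (by simp))
    show |(cheb a).eval t / (z - t)| ≤ _
    rw [abs_div, abs_of_pos (show 0 < z - t by linarith [ht.2])]
    exact div_le_div₀ (by positivity) (abs_cheb_le a ht) (by linarith) (by linarith [ht.2])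
  have hzero : c 0 - w = 0 := by
    refine abs_eq_zero.1 (le_antisymm ?_ (abs_nonneg _))
    have hlim : Tendsto (fun a : ℕ => 1 / (z - 2) * ((a : ℝ) * w ^ a + w ^ a) + w * w ^ a * w ^ a) atTop (𝓝 0) := by
      have h := tendsto_pow_atTop_nhds_zero_of_lt_one h0.le h1
      simpa using (((tendsto_self_mul_const_pow_of_lt_one h0.le h1).add h).const_mul (1 / (z - 2))).add
        ((h.const_mul w).mul h)
    refine ge_of_tendsto hlim (Eventually.of_forall fun a => ?_)
    have h := (abs_sub _ _).trans (add_le_add (hbd a) (le_of_eq (abs_of_pos (pow_pos h0 (a + 1)))))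
    rw [(hd a).1, abs_mul, abs_of_nonneg ((pow_nonneg (inv_nonneg.2 h0.le) a).trans (hgrow a).1)] at h
    have h' := mul_le_mul_of_nonneg_right ((mul_le_mul_of_nonneg_left (hgrow a).1 (abs_nonneg _)).trans h)
      (pow_nonneg h0.le a)
    rw [mul_assoc, ← mul_pow, inv_mul_cancel₀ h0.ne', one_pow, mul_one] at h'
    refine h'.trans (le_of_eq ?_)
    ring
  have := (hd a).1
  rw [hzero, zero_mul, sub_eq_zero] at this
  exact this

theorem stieltjes_semi {w : ℝ} (h0 : 0 < w) (h1 : w < 1) :
    ∫ t, 1 / (w + 1 / w - t) ∂semi = w := by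
  simpa [cheb_zero] using cheb_transform h0 h1 0

/-- The logarithmic potential of the semicircle law. -/
theorem log_potential {w : ℝ} (h0 : 0 < w) (h1 : w < 1) :
    ∫ t, log (w + 1 / w - t) ∂semi = w ^ 2 / 2 - log w := by
  set F : ℝ → ℝ := fun v => ∫ t, log (1 + v ^ 2 - t * v) ∂semi with hF
  have hden : ∀ ρ v t : ℝ, |v| ≤ ρ → ρ < 1 → t ∈ Set.Icc (-2 : ℝ) 2 → (1 - ρ) ^ 2 ≤ 1 + v ^ 2 - t * v := by
    intro ρ v t hv hρ ht
    have h : t * v ≤ 2 * |v| := by
      refine (le_abs_self _).trans ?_
      rw [abs_mul]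
      exact mul_le_mul_of_nonneg_right (abs_le.2 ⟨ht.1, ht.2⟩) (abs_nonneg _)
    nlinarith [sq_abs v, mul_nonneg (sub_nonneg.2 hv) (show 0 ≤ 2 - ρ - |v| by linarith)]
  have hder : ∀ v, |v| < 1 → HasDerivAt F (∫ t, (2 * v - t) / (1 + v ^ 2 - t * v) ∂semi) v := by
    intro v hv
    set ρ := (1 + |v|) / 2 with hρd
    have hρ : ρ < 1 := by linarith
    have hρ0 : |v| ≤ ρ := by linarith
    have hball : ∀ u ∈ Metric.ball v ((1 - |v|) / 2), |u| ≤ ρ := fun u hu => by
      rw [Metric.mem_ball, Real.dist_eq] at hu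
      linarith [abs_sub_abs_le_abs_sub u v]
    refine (hasDerivAt_integral_of_dominated_loc_of_deriv_le (μ := semi)
      (F := fun u t => log (1 + u ^ 2 - t * u)) (F' := fun u t => (2 * u - t) / (1 + u ^ 2 - t * u))
      (x₀ := v) (bound := fun _ => 4 / (1 - ρ) ^ 2) (Metric.ball_mem_nhds _ (half_pos (sub_pos.2 hv)))
      (Eventually.of_forall fun u => (by fun_prop : Measurable _).aestronglyMeasurable) ?_
      (by fun_prop : Measurable _).aestronglyMeasurable (ae_semi.mono fun t ht u hu => ?_)
      (integrable_const _) (ae_semi.mono fun t ht u hu => ?_)).2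
    · refine Integrable.of_bound (by fun_prop : Measurable _).aestronglyMeasurable
        (|log ((1 - ρ) ^ 2)| + |log 4|) (ae_semi.mono fun t ht => ?_)
      have hp : 0 < (1 - ρ) ^ 2 := pow_pos (by linarith) 2
      have l := hden ρ v t hρ0 hρ ht
      have h4 : 1 + v ^ 2 - t * v ≤ 4 := by
        nlinarith [sq_abs v, abs_nonneg v, neg_abs_le (t * v), abs_mul t v,
          mul_le_mul_of_nonneg_right (abs_le.2 ⟨ht.1, ht.2⟩) (abs_nonneg v)]
      rw [norm_eq_abs, abs_le]
      constructor <;> linarith [log_le_log hp l, log_le_log (hp.trans_le l) h4,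
        neg_abs_le (log ((1 - ρ) ^ 2)), le_abs_self (log 4), abs_nonneg (log ((1 - ρ) ^ 2)), abs_nonneg (log 4)]
    · have hu' := hball u hu
      rw [norm_eq_abs, abs_div, abs_of_pos ((pow_pos (show 0 < 1 - ρ by linarith) 2).trans_le (hden ρ u t hu' hρ ht))]
      refine div_le_div₀ (by norm_num) ?_ (pow_pos (by linarith) 2) (hden ρ u t hu' hρ ht)
      refine (abs_sub _ _).trans ?_
      rw [abs_mul, abs_two]
      linarith [abs_le.2 (show -2 ≤ t ∧ t ≤ 2 from ⟨ht.1, ht.2⟩)]
    · have hne := ((pow_pos (show 0 < 1 - ρ by linarith) 2).trans_le (hden ρ u t (hball u hu) hρ ht)).ne'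
      have h := (((hasDerivAt_pow 2 u).const_add 1).sub ((hasDerivAt_id u).const_mul t)).log hne
      simpa using h
  have hval : ∀ v, 0 < v → v < 1 → HasDerivAt F v v := fun v v0 v1 => by
    refine (hder v (by rw [abs_of_pos v0]; exact v1)).congr_deriv ?_
    have hz := zOne_gt v0 v1
    have e : ∀ᵐ t ∂semi, (2 * v - t) / (1 + v ^ 2 - t * v)
        = 1 / v + (v - 1 / v) / v * (1 / (v + 1 / v - t)) := ae_semi.mono fun t ht => by
      have h2 : v + 1 / v - t ≠ 0 := by linarith [ht.2]
      have h3 : 1 + v ^ 2 - t * v = v * (v + 1 / v - t) := by field_simp; ring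
      have h4 : v + 1 / v - t ≠ 0 := h2
      rw [h3]
      generalize hr : v + 1 / v - t = r at h4 ⊢
      have hrt : t = v + 1 / v - r := by linarith
      subst hrt
      field_simp
      ring
    rw [integral_congr_ae e, integral_add (integrable_const _)
      ((integrable_div_semi continuous_const hz).const_mul _), integral_const_mul, stieltjes_semi v0 v1,
      integral_const, probReal_univ, one_smul]
    field_simp
    ring
  have hconst : F w - w ^ 2 / 2 = F 0 - 0 ^ 2 / 2 := by
    refine eq_of_has_deriv_right_eq (a := 0) (b := w) (f := fun v => F v - v ^ 2 / 2) (g := fun _ => F 0 - 0 ^ 2 / 2)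
      (f' := fun _ => 0) (fun v hv => ?_) (fun v _ => hasDerivWithinAt_const _ _ _) (fun v hv => ?_)
      continuousOn_const rfl w (Set.right_mem_Icc.2 h0.le)
    · rcases eq_or_lt_of_le hv.1 with h | h
      · subst h
        have h' := ((hder 0 (by norm_num)).sub ((hasDerivAt_pow 2 (0 : ℝ)).div_const 2))
        refine (h'.congr_deriv ?_).hasDerivWithinAt
        have : ∫ t, t ∂semi = 0 := by simpa [cheb_one] using cheb_moment 1
        simp only [mul_zero, zero_sub, zero_pow two_ne_zero, add_zero, sub_zero, div_one]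
        rw [integral_neg, this]
        norm_num
      · refine ((hval v h (hv.2.trans h1)).sub ((hasDerivAt_pow 2 v).div_const 2)).congr_deriv ?_ |>.hasDerivWithinAt
        norm_num
    · exact (((hder v (by rw [abs_of_nonneg hv.1]; linarith [hv.2])).sub
        ((hasDerivAt_pow 2 v).div_const 2)).continuousAt).continuousWithinAt
  have hF0 : F 0 = 0 := by simp [hF]
  have hz := zOne_gt h0 h1
  have e : ∀ᵐ t ∂semi, log (w + 1 / w - t) = log (1 + w ^ 2 - t * w) - log w := ae_semi.mono fun t ht => by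
    have hp : 0 < w + 1 / w - t := by linarith [ht.2]
    have h3 : 1 + w ^ 2 - t * w = w * (w + 1 / w - t) := by field_simp; ring
    rw [h3, log_mul h0.ne' hp.ne']; ring
  have hi : Integrable (fun t => log (1 + w ^ 2 - t * w)) semi := by
    refine Integrable.of_bound (by fun_prop : Measurable _).aestronglyMeasurable
      (|log ((1 - w) ^ 2)| + |log 4|) (ae_semi.mono fun t ht => ?_)
    have hp : 0 < (1 - w) ^ 2 := pow_pos (by linarith) 2
    have l := hden w w t (abs_of_pos h0).le h1 ht
    have h4 : 1 + w ^ 2 - t * w ≤ 4 := by nlinarith [ht.1, ht.2]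
    rw [norm_eq_abs, abs_le]
    constructor <;> linarith [log_le_log hp l, log_le_log (hp.trans_le l) h4,
      neg_abs_le (log ((1 - w) ^ 2)), le_abs_self (log 4), abs_nonneg (log ((1 - w) ^ 2)), abs_nonneg (log 4)]
  rw [integral_congr_ae e, integral_sub hi (integrable_const _), integral_const, probReal_univ, one_smul]
  simp only [hF] at hconst hF0
  rw [hF0] at hconst
  linarith

/-- The square of a Chebyshev polynomial. -/
theorem cheb_sq (a : ℕ) :
    cheb a ^ 2 = ∑ i ∈ range (a + 1), cheb (2 * i) ∧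
      cheb (a + 1) * cheb a = ∑ i ∈ range (a + 1), cheb (2 * i + 1) := by
  induction a with
  | zero => simp [cheb_zero, cheb_one]
  | succ a ih =>
    have hX : ∀ n : ℕ, X * ∑ i ∈ range n, cheb (2 * i + 1)
        = ∑ i ∈ range n, cheb (2 * i + 2) + ∑ i ∈ range n, cheb (2 * i) := fun n => by
      rw [mul_sum, ← sum_add_distrib]
      exact sum_congr rfl fun i _ => by rw [cheb_succ_succ]; ring
    have hC : cheb a ^ 2 + cheb (a + 1) ^ 2 - X * cheb a * cheb (a + 1) = 1 := by
      simp only [cheb]; push_cast; exact Polynomial.Chebyshev.S_sq_add_S_sq ℝ _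
    have h1 : cheb (a + 1) ^ 2 = ∑ i ∈ range (a + 2), cheb (2 * i) := by
      rw [sum_range_succ' _ (a + 1)]
      simp only [mul_add, mul_one, mul_zero, cheb_zero]
      linear_combination hC + X * ih.2 + hX (a + 1) - ih.1
    refine ⟨h1, ?_⟩
    have hX2 : X * ∑ i ∈ range (a + 2), cheb (2 * i)
        = ∑ i ∈ range (a + 2), cheb (2 * i + 1) + ∑ i ∈ range (a + 1), cheb (2 * i + 1) := by
      rw [mul_sum, sum_range_succ' _ (a + 1), sum_range_succ' _ (a + 1)]
      simp only [mul_add, mul_one, mul_zero, cheb_zero, cheb_one, zero_add]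
      rw [add_right_comm, ← sum_add_distrib]
      congr 1
      refine sum_congr rfl fun i _ => ?_
      rw [show cheb (2 * i + 2 + 1) = X * cheb (2 * i + 2) - cheb (2 * i + 1) from cheb_succ_succ _]
      ring
    rw [cheb_succ_succ a]
    linear_combination X * h1 + hX2 - ih.2

end Vale.Agent.P146
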